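import Mathlib
import Crest.Agent.R36.Glue172
import Crest.Agent.R36.Iso172
import Crest.Agent.R36.KnQuot172
import Crest.Agent.R36.Pol172
import Crest.Agent.R36.Gen259

/-! R36 (helper172): `BipF2 (2d+3) (2e+3)` from the tournament theorem (T). -/

set_option autoImplicit false

namespace Crest.Agent.R36.Bip172
open Crest.Agent.R36.G172 Crest.Agent.R36.Pol172

/-- `ZMod 2` into `K` -/
def χ (K : Type*) [Field K] (x : ZMod 2) : K := if x = 1 then 1 else 0

theorem χ_add (K : Type*) [Field K] [CharP K 2] (x y : ZMod 2) : χ K (x + y) = χ K x + χ K y := by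
  have h2 : (1 : K) + 1 = 0 := CharTwo.add_self_eq_zero 1
  have h : ∀ x : ZMod 2, x = 0 ∨ x = 1 := by decide
  rcases h x with rfl | rfl <;> rcases h y with rfl | rfl
  · simp [χ]
  · simp [χ]
  · simp [χ]
  · have : (1 : ZMod 2) + 1 = 0 := by decide
    rw [this]; simp [χ, h2]

theorem χ_one (K : Type*) [Field K] : χ K 1 = 1 := by simp [χ]

/-- evaluation of a coefficient array -/
def ev {K : Type*} [Field K] {N : ℕ} (p : Fin N → Fin N → K) (x y : K) : K :=
  ∑ a, ∑ b, p a b * x ^ (a : ℕ) * y ^ (b : ℕ)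

/-- **(T)**, helper635's interface, as a hypothesis. -/
def TForm : Prop := ∀ (K : Type) [Field K] [CharP K 2] (ι : Type) [Fintype ι] [DecidableEq ι]
  (t : ι → K) (D : ι → Derivation ℤ K K) (_ : ∀ i j, D i (t j) = if i = j then 1 else 0) (e : ℕ)
  (_ : Fintype.card ι = 2 * e + 3) (T : ι → ι → ZMod 2)
  (_ : ∀ i j, i ≠ j → T i j + T j i = 1) (p : Fin (e + 1) → Fin (e + 1) → K)
  (_ : ∀ a b : ℕ, a ≤ e → b ≤ e → ∑ i, ∑ j, (if T i j = 1 ∧ i ≠ j then
    om t i * om t j * (t i + t j) * ev p (t i) (t j) * t i ^ a * t j ^ b else 0) = 0), p = 0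

section F1

variable {K : Type*} [Field K] {m n : ℕ}

theorem full4 (G : Fin m → Fin m → Fin n → Fin n → K)
    (hA : ∀ i j l, ∑ k, G i k j l = 0) (hB : ∀ k j l, ∑ i, G i k j l = 0)
    (hC : ∀ i k j, ∑ l, G i k j l = 0) (hD : ∀ i k l, ∑ j, G i k j l = 0)
    (c1 : Fin m → Fin m → Fin n → K) (c2 : Fin m → Fin m → Fin n → K)
    (c3 : Fin m → Fin n → Fin n → K) (c4 : Fin m → Fin n → Fin n → K) :
    ∑ i, ∑ k, ∑ j, ∑ l, (c1 i k j + c2 i k l + c3 i j l + c4 k j l) * G i k j l = 0 := by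
  have h1 : ∑ i, ∑ k, ∑ j, ∑ l, c1 i k j * G i k j l = 0 := by
    simp only [← Finset.mul_sum, hC, mul_zero, Finset.sum_const_zero]
  have h2 : ∑ i, ∑ k, ∑ j, ∑ l, c2 i k l * G i k j l = 0 := by
    refine Finset.sum_eq_zero fun i _ => Finset.sum_eq_zero fun k _ => ?_
    rw [Finset.sum_comm]
    simp only [← Finset.mul_sum, hD, mul_zero, Finset.sum_const_zero]
  have h3 : ∑ i, ∑ k, ∑ j, ∑ l, c3 i j l * G i k j l = 0 := by
    refine Finset.sum_eq_zero fun i _ => ?_
    rw [Finset.sum_comm]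
    refine Finset.sum_eq_zero fun j _ => ?_
    rw [Finset.sum_comm]
    simp only [← Finset.mul_sum, hA, mul_zero, Finset.sum_const_zero]
  have h4 : ∑ i, ∑ k, ∑ j, ∑ l, c4 k j l * G i k j l = 0 := by
    rw [Finset.sum_comm]
    refine Finset.sum_eq_zero fun k _ => ?_
    rw [Finset.sum_comm]
    refine Finset.sum_eq_zero fun j _ => ?_
    rw [Finset.sum_comm]
    simp only [← Finset.mul_sum, hB, mul_zero, Finset.sum_const_zero]
  simp only [add_mul, Finset.sum_add_distrib, h1, h2, h3, h4, add_zero]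

/-- the tournament at the row `i` -/
def R (M : Fin m → Fin n → Fin n → ZMod 2) (i : Fin m) (j l : Fin n) : ZMod 2 :=
  iv (j < l) + M i j l + M i l j

theorem R_tour (M : Fin m → Fin n → Fin n → ZMod 2) (i : Fin m) {j l : Fin n} (h : j ≠ l) :
    R M i j l + R M i l j = 1 := by
  unfold R
  rw [iv_lt_swap h]
  have : (1 : ZMod 2) + 1 = 0 := by decide
  linear_combination (iv (j < l) + M i j l + M i l j) * this

/-- **(F1)** -/
theorem F1 [CharP K 2] (Kk : Fin n → Fin m → Fin m → ZMod 2) (M : Fin m → Fin n → Fin n → ZMod 2)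
    (G : Fin m → Fin m → Fin n → Fin n → K)
    (hA : ∀ i j l, ∑ k, G i k j l = 0) (hB : ∀ k j l, ∑ i, G i k j l = 0)
    (hC : ∀ i k j, ∑ l, G i k j l = 0) (hD : ∀ i k l, ∑ j, G i k j l = 0)
    (hdiag : ∀ i k j, G i k j j = 0) :
    ∑ q ∈ SB Kk M, G q.1.1 q.2.1 q.1.2 q.2.2 =
      ∑ i, ∑ j, ∑ l, χ K (R M i j l) * G i i j l := by
  classical
  -- the full sum
  have hfull := full4 G hA hB hC hD
    (fun i k j => 1 + χ K (iv (i < k)) + χ K (Kk j i k)) (fun i k l => χ K (Kk l k i))
    (fun i j l => χ K (iv (j < l)) + χ K (M i j l)) (fun k j l => χ K (M k l j))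
  have hx : ∀ i k j l, (1 + χ K (iv (i < k)) + χ K (Kk j i k)) + χ K (Kk l k i) +
      (χ K (iv (j < l)) + χ K (M i j l)) + χ K (M k l j) = χ K (xB Kk M i j k l) := by
    intro i k j l
    unfold xB
    rw [χ_add, χ_add, χ_add, χ_add, χ_add, χ_add, χ_one]
    ring
  have hsplit : ∑ i, ∑ k, ∑ j, ∑ l, χ K (xB Kk M i j k l) * G i k j l =
      ∑ i, ∑ k, (if i ≠ k then ∑ j, ∑ l, χ K (xB Kk M i j k l) * G i k j l else 0) +
      ∑ i, ∑ j, ∑ l, χ K (xB Kk M i j i l) * G i i j l := by
    rw [← Finset.sum_add_distrib]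
    refine Finset.sum_congr rfl fun i _ => ?_
    rw [← Finset.add_sum_erase _ _ (Finset.mem_univ i),
      ← Finset.add_sum_erase (a := i) _
        (fun k => if i ≠ k then ∑ j, ∑ l, χ K (xB Kk M i j k l) * G i k j l else 0)
        (Finset.mem_univ i)]
    have : ∑ k ∈ Finset.univ.erase i,
        (if i ≠ k then ∑ j, ∑ l, χ K (xB Kk M i j k l) * G i k j l else 0) =
        ∑ k ∈ Finset.univ.erase i, ∑ j, ∑ l, χ K (xB Kk M i j k l) * G i k j l := by
      refine Finset.sum_congr rfl fun k hk => ?_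
      rw [if_pos (Finset.ne_of_mem_erase hk).symm]
    rw [this]
    simp only [ne_eq, not_true_eq_false, if_false, zero_add]
    ring
  have hSB : ∑ q ∈ SB Kk M, G q.1.1 q.2.1 q.1.2 q.2.2 =
      ∑ i, ∑ k, (if i ≠ k then ∑ j, ∑ l, χ K (xB Kk M i j k l) * G i k j l else 0) := by
    unfold SB
    rw [Finset.sum_filter]
    rw [← Finset.univ_product_univ, Finset.sum_product]
    simp_rw [← Finset.univ_product_univ, Finset.sum_product]
    refine Finset.sum_congr rfl fun i _ => ?_
    rw [Finset.sum_comm]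
    refine Finset.sum_congr rfl fun k _ => ?_
    by_cases hik : i = k
    · subst hik
      simp
    · rw [if_pos hik]
      refine Finset.sum_congr rfl fun j _ => Finset.sum_congr rfl fun l _ => ?_
      by_cases hjl : j = l
      · subst hjl
        rw [hdiag, mul_zero]
        simp
      · by_cases hx1 : xB Kk M i j k l = 1
        · rw [if_pos ⟨hik, hjl, hx1⟩, hx1, χ_one, one_mul]
        · rw [if_neg (fun h => hx1 h.2.2)]
          simp [χ, hx1]
  have hd : ∑ i, ∑ j, ∑ l, χ K (xB Kk M i j i l) * G i i j l =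
      ∑ i, ∑ j, ∑ l, χ K (R M i j l) * G i i j l := by
    refine Finset.sum_congr rfl fun i _ => ?_
    have e1 : ∑ j, ∑ l, (1 + χ K (Kk j i i)) * G i i j l = 0 := by
      simp only [← Finset.mul_sum, hC, mul_zero, Finset.sum_const_zero]
    have e2 : ∑ j, ∑ l, χ K (Kk l i i) * G i i j l = 0 := by
      rw [Finset.sum_comm]
      simp only [← Finset.mul_sum, hD, mul_zero, Finset.sum_const_zero]
    have e3 : ∀ j l, χ K (xB Kk M i j i l) * G i i j l =
        (1 + χ K (Kk j i i)) * G i i j l + χ K (Kk l i i) * G i i j l +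
          χ K (R M i j l) * G i i j l := by
      intro j l
      unfold xB R
      have : iv (i < i) = 0 := by simp [iv]
      rw [this, χ_add, χ_add, χ_add, χ_add, χ_add, add_zero, χ_add, χ_add, χ_one]
      ring
    simp only [e3, Finset.sum_add_distrib, e1, e2, zero_add]
  have hfull' : ∑ i, ∑ k, ∑ j, ∑ l, χ K (xB Kk M i j k l) * G i k j l = 0 := by
    rw [← hfull]
    refine Finset.sum_congr rfl fun i _ => Finset.sum_congr rfl fun k _ =>
      Finset.sum_congr rfl fun j _ => Finset.sum_congr rfl fun l _ => ?_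
    rw [← hx]
  rw [hsplit, hd] at hfull'
  rw [hSB]
  exact CharTwo.add_eq_zero.1 hfull'

end F1

section Poly

variable {K : Type*} [Field K] [CharP K 2] {d e : ℕ}
  (t : Fin (2 * d + 3) → K) (τ : Fin (2 * e + 3) → K)

/-- the weighted function -/
def GG (U : K → K → K → K → K) (i k : Fin (2 * d + 3)) (j l : Fin (2 * e + 3)) : K :=
  om t i * om t k * om τ j * om τ l * (τ j + τ l) * U (t i) (t k) (τ j) (τ l)

/-- **(F1)** for polynomial functions -/
theorem F1P (ht : Function.Injective t) (hτ : Function.Injective τ)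
    (Kk : Fin (2 * e + 3) → Fin (2 * d + 3) → Fin (2 * d + 3) → ZMod 2)
    (M : Fin (2 * d + 3) → Fin (2 * e + 3) → Fin (2 * e + 3) → ZMod 2)
    (U : K → K → K → K → K)
    (hx : ∀ y z w, Pol (2 * d + 1) (fun x => U x y z w))
    (hy : ∀ x z w, Pol (2 * d + 1) (fun y => U x y z w))
    (hz : ∀ x y w, Pol (2 * e) (fun z => U x y z w))
    (hw : ∀ x y z, Pol (2 * e) (fun w => U x y z w)) :
    ∑ q ∈ SB Kk M, GG t τ U q.1.1 q.2.1 q.1.2 q.2.2 =
      ∑ i, ∑ j, ∑ l, χ K (R M i j l) * GG t τ U i i j l := by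
  apply F1
  · intro i j l
    have h1 := lagrange t ht (hy (t i) (τ j) (τ l)) (by simp)
    have h2 : ∀ k, GG t τ U i k j l = (om t i * om τ j * om τ l * (τ j + τ l)) *
        (om t k * U (t i) (t k) (τ j) (τ l)) := fun k => by unfold GG; ring
    simp only [h2]
    rw [← Finset.mul_sum, h1, mul_zero]
  · intro k j l
    have h1 := lagrange t ht (hx (t k) (τ j) (τ l)) (by simp)
    have h2 : ∀ i, GG t τ U i k j l = (om t k * om τ j * om τ l * (τ j + τ l)) *
        (om t i * U (t i) (t k) (τ j) (τ l)) := fun i => by unfold GG; ring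
    simp only [h2]
    rw [← Finset.mul_sum, h1, mul_zero]
  · intro i k j
    have hP : Pol (1 + 2 * e) (fun w => (τ j + w) * U (t i) (t k) (τ j) w) :=
      ((Pol.const (τ j)).add (Pol.id le_rfl)).mul (hw (t i) (t k) (τ j))
    have h1 := lagrange τ hτ hP (by simp; omega)
    have h2 : ∀ l, GG t τ U i k j l = (om t i * om t k * om τ j) *
        (om τ l * ((τ j + τ l) * U (t i) (t k) (τ j) (τ l))) := fun l => by unfold GG; ring
    simp only [h2]
    rw [← Finset.mul_sum, h1, mul_zero]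
  · intro i k l
    have hP : Pol (1 + 2 * e) (fun z => (z + τ l) * U (t i) (t k) z (τ l)) :=
      ((Pol.id le_rfl).add (Pol.const (τ l))).mul (hz (t i) (t k) (τ l))
    have h1 := lagrange τ hτ hP (by simp; omega)
    have h2 : ∀ j, GG t τ U i k j l = (om t i * om t k * om τ l) *
        (om τ j * ((τ j + τ l) * U (t i) (t k) (τ j) (τ l))) := fun j => by unfold GG; ring
    simp only [h2]
    rw [← Finset.mul_sum, h1, mul_zero]
  · intro i k j
    unfold GG
    rw [CharTwo.add_self_eq_zero]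
    ring

end Poly

end Crest.Agent.R36.Bip172
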