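import Crest.Agent.R36.Bip127
import Crest.Agent.R36.Glue172
import Crest.Agent.R36.Gen259
import Crest.Agent.R36.TL100

/-! R36 (helper127): **the F2 form of Zarankiewicz, odd case, unconditional**: `bipF2_odd`. -/

set_option autoImplicit false
open Finset Polynomial

namespace Crest.Agent.R36.Bip127

/-- (T) in the form used by `bip_core`, from helper100's `TL100.tournament`. -/
theorem tprop_of {K : Type*} [Field K] [CharP K 2] {n e : ℕ} (hn : n = 2 * e + 3) (tau : Fin n → K)
    (D : Fin n → Derivation ℤ K K) (hD : ∀ i j, D i (tau j) = if i = j then 1 else 0) :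
    TProp e tau := by
  intro T hT p h
  set c : ℕ → ℕ → K := fun a b => if hab : a < e + 1 ∧ b < e + 1 then p ⟨a, hab.1⟩ ⟨b, hab.2⟩ else 0
    with hc
  have hev : ∀ x y : K, ∑ a ∈ range (e + 1), ∑ b ∈ range (e + 1), c a b * x ^ a * y ^ b =
      ev p x y := by
    intro x y
    unfold ev
    rw [Finset.sum_range]
    refine Finset.sum_congr rfl fun a _ => ?_
    rw [Finset.sum_range]
    refine Finset.sum_congr rfl fun b _ => ?_
    simp only [hc]
    rw [dif_pos ⟨a.2, b.2⟩]
  have key := TL100.tournament tau D hD e (by rw [Fintype.card_fin]; exact hn) T hT c (by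
    intro a' ha' b' hb'
    have h1 := h (fun a b => if (a : ℕ) = a' ∧ (b : ℕ) = b' then 1 else 0)
    have hk : ∀ x y : K, ev (fun a b : Fin (e + 1) => if (a : ℕ) = a' ∧ (b : ℕ) = b' then
        (1 : K) else 0) x y = x ^ a' * y ^ b' := by
      intro x y
      show ∑ a : Fin (e + 1), ∑ b : Fin (e + 1), (if (a : ℕ) = a' ∧ (b : ℕ) = b' then (1 : K) else 0) *
        x ^ (a : ℕ) * y ^ (b : ℕ) = _
      rw [Finset.sum_eq_single ⟨a', by omega⟩, Finset.sum_eq_single ⟨b', by omega⟩]
      · simp
      · intro b _ hb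
        rw [if_neg, zero_mul, zero_mul]
        exact fun h => hb (Fin.ext h.2)
      · intro h; exact absurd (mem_univ _) h
      · intro a _ ha
        refine Finset.sum_eq_zero fun b _ => ?_
        rw [if_neg, zero_mul, zero_mul]
        exact fun h => ha (Fin.ext h.1)
      · intro h; exact absurd (mem_univ _) h
    refine Eq.trans ?_ h1
    refine Finset.sum_congr rfl fun j _ => Finset.sum_congr rfl fun l _ => ?_
    rw [hk, hev]
    by_cases hx : T j l = 1 ∧ j ≠ l
    · rw [if_pos hx, if_pos ⟨hx.2, hx.1⟩]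
      simp only [TL100.om, wt]
      ring
    · rw [if_neg hx, if_neg (fun h => hx ⟨h.2, h.1⟩)])
  ext a b
  have h2 := key a (by omega) b (by omega)
  simp only [hc] at h2
  rw [dif_pos ⟨a.2, b.2⟩] at h2
  exact h2

/-- **The F2 form of Zarankiewicz, odd case.** -/
theorem bipF2_odd (d e : ℕ) : G172.BipF2 (2 * d + 3) (2 * e + 3) := by
  classical
  intro Kf M
  obtain ⟨K, _, _, _, tau, D, hD⟩ := Gen259.exists_field (2 * e + 3)
  obtain ⟨t⟩ : Nonempty (Fin (2 * d + 3) ↪ K) := ⟨(Fin.valEmbedding).trans (Infinite.natEmbedding K)⟩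
  have htau : Function.Injective tau := TL100.injective_of_der tau D hD
  have h := bip_core (d := d) (e := e) rfl rfl t.injective htau (tprop_of rfl tau D hD) Kf M
  have e1 : (2 * d + 3) / 2 = d + 1 := by omega
  have e2 : (2 * d + 3 - 1) / 2 = d + 1 := by omega
  have e3 : (2 * e + 3) / 2 = e + 1 := by omega
  have e4 : (2 * e + 3 - 1) / 2 = e + 1 := by omega
  rw [e1, e2, e3, e4]
  exact h

end Crest.Agent.R36.Bip127
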