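import Mathlib
import Crest.Agent.R36.KnQuot172

/-! R36 / KN (helper590): common definitions of the `K_n` algebra block. -/

set_option autoImplicit false

namespace Crest.Agent.R36.Kn590

open Crest.Agent.R36.G172 Crest.Agent.R036

variable {K : Type*} [Field K]

/-- evaluation of a 4-dimensional coefficient array -/
def F4 {N : ℕ} (C : Fin N → Fin N → Fin N → Fin N → K) (x y z w : K) : K :=
  ∑ i, ∑ j, ∑ k, ∑ l, C i j k l * x ^ (i : ℕ) * y ^ (j : ℕ) * z ^ (k : ℕ) * w ^ (l : ℕ)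

/-- alternating in (1,2) and in (3,4) (characteristic 2) -/
structure Alt {N : ℕ} (C : Fin N → Fin N → Fin N → Fin N → K) : Prop where
  s12 : ∀ i j k l, C i j k l = C j i k l
  d12 : ∀ i k l, C i i k l = 0
  s34 : ∀ i j k l, C i j k l = C i j l k
  d34 : ∀ i j k, C i j k k = 0

/-- Lagrange weights -/
def wt {ι : Type*} [Fintype ι] [DecidableEq ι] (t : ι → K) (a : ι) : K :=
  (∏ b ∈ Finset.univ.erase a, (t a + t b))⁻¹

/-- the weight of an ordered pair of edges in the isotropy relation (for alternating functions) -/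
def lam {n : ℕ} (t : Fin n → K) (q : Fin n × Fin n × Fin n × Fin n) : K :=
  wt t q.1 * wt t q.2.1 * wt t q.2.2.1 * wt t q.2.2.2 *
    ((t q.1 + t q.2.2.1) * (t q.1 + t q.2.2.2) * (t q.2.1 + t q.2.2.1) * (t q.2.1 + t q.2.2.2)) /
    ((t q.1 + t q.2.1) * (t q.2.2.1 + t q.2.2.2))

/-- evaluation at a quadruple of vertices -/
def F4q {n N : ℕ} (t : Fin n → K) (C : Fin N → Fin N → Fin N → Fin N → K)
    (q : Fin n × Fin n × Fin n × Fin n) : K :=
  F4 C (t q.1) (t q.2.1) (t q.2.2.1) (t q.2.2.2)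

end Crest.Agent.R36.Kn590
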