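import Mathlib
import Crest.Agent.R36.KnD590
import Crest.Agent.R36.Div413

/-! R36, helper413: the descent in terms of coefficient arrays (`F4`, `Alt` of `KnD590`). -/

set_option autoImplicit false

namespace Crest.Agent.R36.Div413

open Finset MvPolynomial Crest.Agent.R36.Kn590

variable {K : Type*} [Field K]

/-- exponent `(i,j,k,l)`. -/
noncomputable def e4 (i j k l : ℕ) : Fin 4 →₀ ℕ := Finsupp.equivFunOnFinite.symm ![i, j, k, l]

@[simp] lemma e4_apply (i j k l : ℕ) (a : Fin 4) : e4 i j k l a = ![i, j, k, l] a := rfl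

lemma e4_inj {i j k l i' j' k' l' : ℕ} (h : e4 i j k l = e4 i' j' k' l') :
    i = i' ∧ j = j' ∧ k = k' ∧ l = l' := by
  have h0 := DFunLike.congr_fun h 0
  have h1 := DFunLike.congr_fun h 1
  have h2 := DFunLike.congr_fun h 2
  have h3 := DFunLike.congr_fun h 3
  simp at h0 h1 h2 h3
  exact ⟨h0, h1, h2, h3⟩

lemma e4_self (m : Fin 4 →₀ ℕ) : e4 (m 0) (m 1) (m 2) (m 3) = m := by
  ext a; fin_cases a <;> rfl

/-- the polynomial of an array. -/
noncomputable def toMv {N : ℕ} (C : Fin N → Fin N → Fin N → Fin N → K) :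
    MvPolynomial (Fin 4) K :=
  ∑ i : Fin N, ∑ j : Fin N, ∑ k : Fin N, ∑ l : Fin N, monomial (e4 i j k l) (C i j k l)

lemma eval_toMv {N : ℕ} (C : Fin N → Fin N → Fin N → Fin N → K) (v : Fin 4 → K) :
    eval v (toMv C) = F4 C (v 0) (v 1) (v 2) (v 3) := by
  simp only [toMv, F4, map_sum, eval_monomial]
  refine Finset.sum_congr rfl fun i _ => Finset.sum_congr rfl fun j _ =>
    Finset.sum_congr rfl fun k _ => Finset.sum_congr rfl fun l _ => ?_
  rw [Finsupp.prod_fintype _ _ (fun _ => pow_zero _), Fin.prod_univ_four]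
  simp; ring

lemma coeff_toMv {N : ℕ} (C : Fin N → Fin N → Fin N → Fin N → K) (i j k l : Fin N) :
    coeff (e4 i j k l) (toMv C) = C i j k l := by
  simp only [toMv, coeff_sum, coeff_monomial]
  rw [Finset.sum_eq_single i, Finset.sum_eq_single j, Finset.sum_eq_single k,
    Finset.sum_eq_single l, if_pos rfl]
  · intro l' _ h
    rw [if_neg]; intro h'; exact h (Fin.ext (e4_inj h').2.2.2)
  · simp
  · intro k' _ h
    refine Finset.sum_eq_zero fun l' _ => ?_
    rw [if_neg]; intro h'; exact h (Fin.ext (e4_inj h').2.2.1)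
  · simp
  · intro j' _ h
    refine Finset.sum_eq_zero fun k' _ => Finset.sum_eq_zero fun l' _ => ?_
    rw [if_neg]; intro h'; exact h (Fin.ext (e4_inj h').2.1)
  · simp
  · intro i' _ h
    refine Finset.sum_eq_zero fun j' _ => Finset.sum_eq_zero fun k' _ =>
      Finset.sum_eq_zero fun l' _ => ?_
    rw [if_neg]; intro h'; exact h (Fin.ext (e4_inj h').1)
  · simp

lemma toMv_eq_zero {N : ℕ} {C : Fin N → Fin N → Fin N → Fin N → K} (h : toMv C = 0) : C = 0 := by
  funext i j k l
  rw [← coeff_toMv C, h]; simp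

/-- the array of a polynomial. -/
noncomputable def ofMv (N : ℕ) (P : MvPolynomial (Fin 4) K) : Fin N → Fin N → Fin N → Fin N → K :=
  fun i j k l => coeff (e4 i j k l) P

lemma coeff_toMv_of_le {N : ℕ} (C : Fin N → Fin N → Fin N → Fin N → K) (m : Fin 4 →₀ ℕ)
    (a : Fin 4) (h : N ≤ m a) : coeff m (toMv C) = 0 := by
  simp only [toMv, coeff_sum, coeff_monomial]
  refine Finset.sum_eq_zero fun i _ => Finset.sum_eq_zero fun j _ => Finset.sum_eq_zero fun k _ =>
      Finset.sum_eq_zero fun l _ => ?_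
  rw [if_neg]
  rintro rfl
  have hi := i.2
  have hj := j.2
  have hk := k.2
  have hl := l.2
  fin_cases a <;> simp at h <;> omega

lemma toMv_ofMv {N : ℕ} (P : MvPolynomial (Fin 4) K) (h : ∀ a, P.degreeOf a < N) :
    toMv (ofMv N P) = P := by
  ext m
  by_cases hm : ∀ a, m a < N
  · have := coeff_toMv (ofMv N P) ⟨m 0, hm 0⟩ ⟨m 1, hm 1⟩ ⟨m 2, hm 2⟩ ⟨m 3, hm 3⟩
    simp only [ofMv] at this
    rw [e4_self] at this
    exact this
  · push Not at hm
    obtain ⟨a, ha⟩ := hm
    rw [coeff_toMv_of_le _ m a ha]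
    by_contra hne
    have : m ∈ P.support := by rw [mem_support_iff]; exact fun h0 => hne h0.symm
    have := monomial_le_degreeOf a this
    have := h a
    omega

lemma degreeOf_toMv {N : ℕ} (hN : 0 < N) (C : Fin N → Fin N → Fin N → Fin N → K) (a : Fin 4) :
    (toMv C).degreeOf a < N := by
  rw [degreeOf_lt_iff hN]
  intro m hm
  by_contra h
  push Not at h
  rw [mem_support_iff] at hm
  exact hm (coeff_toMv_of_le C m a h)

/-- a polynomial function that vanishes everywhere has zero array. -/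
lemma F4_zero [Infinite K] {N : ℕ} {C : Fin N → Fin N → Fin N → Fin N → K}
    (h : ∀ x y z w, F4 C x y z w = 0) : C = 0 := by
  apply toMv_eq_zero
  apply MvPolynomial.funext
  intro v
  rw [eval_toMv, h, map_zero]

/-- the same on infinite sets. -/
lemma F4_zero_set {N : ℕ} {C : Fin N → Fin N → Fin N → Fin N → K} (s : Set K) (hs : s.Infinite)
    (h : ∀ x ∈ s, ∀ y ∈ s, ∀ z ∈ s, ∀ w ∈ s, F4 C x y z w = 0) : C = 0 := by
  apply toMv_eq_zero
  apply MvPolynomial.funext_set (s := fun _ => s) (fun _ => hs)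
  intro v hv
  rw [eval_toMv, map_zero]
  exact h _ (hv 0 trivial) _ (hv 1 trivial) _ (hv 2 trivial) _ (hv 3 trivial)

variable [CharP K 2]

/-- sum of a symmetric function in characteristic 2. -/
lemma sum_sym {N : ℕ} (f : Fin N → Fin N → K) (h : ∀ i j, f i j = f j i) :
    ∑ i, ∑ j, f i j = ∑ i, f i i := by
  have h1 : ∑ p : Fin N × Fin N, (if p.1 = p.2 then 0 else f p.1 p.2) = 0 := by
    refine Finset.sum_involution (fun p _ => (p.2, p.1)) ?_ ?_ ?_ ?_
    · intro p _
      by_cases hp : p.1 = p.2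
      · simp [hp]
      · have hp' : ¬ p.2 = p.1 := fun h => hp h.symm
        simp only [hp, hp', if_false]
        rw [h p.2 p.1, CharTwo.add_self_eq_zero]
    · intro p _ hp heq
      apply hp
      have : p.1 = p.2 := by
        have := congrArg Prod.fst heq
        exact this.symm
      simp [this]
    · intro p _; simp
    · intro p _; rfl
  have h2 : ∑ p : Fin N × Fin N, f p.1 p.2
      = ∑ p : Fin N × Fin N, (if p.1 = p.2 then 0 else f p.1 p.2)
        + ∑ p : Fin N × Fin N, (if p.1 = p.2 then f p.1 p.2 else 0) := by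
    rw [← Finset.sum_add_distrib]
    refine Finset.sum_congr rfl fun p _ => ?_
    split_ifs <;> simp
  rw [h1, zero_add, Fintype.sum_prod_type, Fintype.sum_prod_type] at h2
  rw [h2]
  refine Finset.sum_congr rfl fun i _ => ?_
  simp

lemma F4_diag12 {N : ℕ} {C : Fin N → Fin N → Fin N → Fin N → K}
    (h : ∀ i j k l, C i j k l = C j i k l) (x z w : K) :
    F4 C x x z w = ∑ i : Fin N, ∑ k : Fin N, ∑ l : Fin N,
      C i i k l * (x ^ 2) ^ (i : ℕ) * z ^ (k : ℕ) * w ^ (l : ℕ) := by
  rw [F4]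
  rw [sum_sym (fun i j => ∑ k, ∑ l, C i j k l * x ^ (i : ℕ) * x ^ (j : ℕ) * z ^ (k : ℕ)
    * w ^ (l : ℕ))]
  · refine Finset.sum_congr rfl fun i _ => Finset.sum_congr rfl fun k _ =>
      Finset.sum_congr rfl fun l _ => ?_
    ring
  · intro i j
    refine Finset.sum_congr rfl fun k _ => Finset.sum_congr rfl fun l _ => ?_
    rw [h i j]; ring

lemma F4_swap12 {N : ℕ} (C : Fin N → Fin N → Fin N → Fin N → K) (x y z w : K) :
    F4 (fun i j k l => C j i k l) x y z w = F4 C y x z w := by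
  rw [F4, F4, Finset.sum_comm]
  refine Finset.sum_congr rfl fun i _ => Finset.sum_congr rfl fun j _ =>
    Finset.sum_congr rfl fun k _ => Finset.sum_congr rfl fun l _ => ?_
  ring

lemma F4_swap34 {N : ℕ} (C : Fin N → Fin N → Fin N → Fin N → K) (x y z w : K) :
    F4 (fun i j k l => C i j l k) x y z w = F4 C x y w z := by
  rw [F4, F4]
  refine Finset.sum_congr rfl fun i _ => Finset.sum_congr rfl fun j _ => ?_
  rw [Finset.sum_comm]
  refine Finset.sum_congr rfl fun k _ => Finset.sum_congr rfl fun l _ => ?_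
  ring

lemma F4_swapPair {N : ℕ} (C : Fin N → Fin N → Fin N → Fin N → K) (x y z w : K) :
    F4 (fun i j k l => C k l i j) x y z w = F4 C z w x y := by
  rw [F4, F4]
  calc ∑ i, ∑ j, ∑ k, ∑ l, C k l i j * x ^ (i : ℕ) * y ^ (j : ℕ) * z ^ (k : ℕ) * w ^ (l : ℕ)
      = ∑ i, ∑ k, ∑ j, ∑ l, C k l i j * x ^ (i : ℕ) * y ^ (j : ℕ) * z ^ (k : ℕ) * w ^ (l : ℕ) :=
        Finset.sum_congr rfl fun i _ => Finset.sum_comm
    _ = ∑ k, ∑ i, ∑ l, ∑ j, C k l i j * x ^ (i : ℕ) * y ^ (j : ℕ) * z ^ (k : ℕ) * w ^ (l : ℕ) := by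
        rw [Finset.sum_comm]
        exact Finset.sum_congr rfl fun k _ => Finset.sum_congr rfl fun i _ => Finset.sum_comm
    _ = ∑ k, ∑ l, ∑ i, ∑ j, C k l i j * x ^ (i : ℕ) * y ^ (j : ℕ) * z ^ (k : ℕ) * w ^ (l : ℕ) :=
        Finset.sum_congr rfl fun k _ => Finset.sum_comm
    _ = _ := by
        refine Finset.sum_congr rfl fun i _ => Finset.sum_congr rfl fun j _ =>
          Finset.sum_congr rfl fun k _ => Finset.sum_congr rfl fun l _ => ?_
        ring

lemma F4_sub {N : ℕ} (C C' : Fin N → Fin N → Fin N → Fin N → K) (x y z w : K) :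
    F4 (fun i j k l => C i j k l - C' i j k l) x y z w = F4 C x y z w - F4 C' x y z w := by
  simp only [F4, ← Finset.sum_sub_distrib, sub_mul]

lemma sym12_iff [Infinite K] {N : ℕ} {C : Fin N → Fin N → Fin N → Fin N → K} :
    (∀ x y z w, F4 C x y z w = F4 C y x z w) ↔ ∀ i j k l, C i j k l = C j i k l := by
  constructor
  · intro h i j k l
    have h1 : (fun i j k l => C i j k l - C j i k l) = 0 := by
      apply F4_zero
      intro x y z w
      rw [F4_sub C (fun i j k l => C j i k l), F4_swap12 C, h x y z w, sub_self]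
    have := congrFun (congrFun (congrFun (congrFun h1 i) j) k) l
    exact sub_eq_zero.1 this
  · intro h x y z w
    rw [← F4_swap12 C x y z w]
    congr 1
    funext i j k l; exact h i j k l

lemma sym34_iff [Infinite K] {N : ℕ} {C : Fin N → Fin N → Fin N → Fin N → K} :
    (∀ x y z w, F4 C x y z w = F4 C x y w z) ↔ ∀ i j k l, C i j k l = C i j l k := by
  constructor
  · intro h i j k l
    have h1 : (fun i j k l => C i j k l - C i j l k) = 0 := by
      apply F4_zero
      intro x y z w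
      rw [F4_sub C (fun i j k l => C i j l k), F4_swap34 C, h x y z w, sub_self]
    have := congrFun (congrFun (congrFun (congrFun h1 i) j) k) l
    exact sub_eq_zero.1 this
  · intro h x y z w
    rw [← F4_swap34 C x y z w]
    congr 1
    funext i j k l; exact h i j k l

lemma infinite_sq [Infinite K] : (Set.range (fun x : K => x ^ 2)).Infinite := by
  apply Set.infinite_range_of_injective
  intro x y hxy
  exact CharTwo.sq_injective hxy

lemma diag12_iff [Infinite K] {N : ℕ} {C : Fin N → Fin N → Fin N → Fin N → K}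
    (hs : ∀ i j k l, C i j k l = C j i k l) :
    (∀ x z w, F4 C x x z w = 0) ↔ ∀ i k l, C i i k l = 0 := by
  constructor
  · intro h i k l
    have h1 : (fun (i j k l : Fin N) => if (j : ℕ) = 0 then C i i k l else 0) = 0 := by
      apply F4_zero_set _ (infinite_sq (K := K))
      rintro _ ⟨x, rfl⟩ y _ z _ w _
      have h2 := h x z w
      rw [F4_diag12 hs] at h2
      refine Eq.trans ?_ h2
      rw [F4]
      refine Finset.sum_congr rfl fun i _ => ?_
      have hpos : 0 < N := lt_of_le_of_lt (Nat.zero_le _) i.2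
      rw [Finset.sum_eq_single (⟨0, hpos⟩ : Fin N)]
      · simp
      · intro j _ hj
        have : (j : ℕ) ≠ 0 := fun h0 => hj (Fin.ext h0)
        simp [this]
      · simp
    have hpos : 0 < N := lt_of_le_of_lt (Nat.zero_le _) i.2
    have := congrFun (congrFun (congrFun (congrFun h1 i) ⟨0, hpos⟩) k) l
    simpa using this
  · intro h x z w
    rw [F4_diag12 hs]
    refine Finset.sum_eq_zero fun i _ => Finset.sum_eq_zero fun k _ =>
      Finset.sum_eq_zero fun l _ => ?_
    rw [h]; ring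

/-- exchanging the two pairs of slots. -/
lemma diag34_iff [Infinite K] {N : ℕ} {C : Fin N → Fin N → Fin N → Fin N → K}
    (hs : ∀ i j k l, C i j k l = C i j l k) :
    (∀ x y z, F4 C x y z z = 0) ↔ ∀ i j k, C i j k k = 0 := by
  have h := diag12_iff (C := fun i j k l => C k l i j) (fun i j k l => hs k l i j)
  constructor
  · intro h1 i j k
    exact (h.1 fun x z w => by rw [F4_swapPair]; exact h1 z w x) k i j
  · intro h1 x y z
    have := h.2 (fun i k l => h1 k l i) z x y
    rwa [F4_swapPair] at this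

lemma symP_toMv [Infinite K] {N : ℕ} {C : Fin N → Fin N → Fin N → Fin N → K}
    (h12 : ∀ i j k l, C i j k l = C j i k l) (h34 : ∀ i j k l, C i j k l = C i j l k) :
    SymP (toMv C) := by
  apply symP_of_eval
  · intro v
    rw [eval_toMv, eval_toMv]
    exact (sym12_iff.2 h12 _ _ _ _)
  · intro v
    rw [eval_toMv, eval_toMv]
    exact (sym34_iff.2 h34 _ _ _ _)

lemma psi01_toMv [Infinite K] {N : ℕ} {C : Fin N → Fin N → Fin N → Fin N → K}
    (h : ∀ x z w, F4 C x x z w = 0) : psi K (0 : Fin 4) 1 (toMv C) = 0 := by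
  rw [psi_eq_zero_iff]
  intro v hv
  rw [eval_toMv, ← hv]; exact h _ _ _

lemma psi23_toMv [Infinite K] {N : ℕ} {C : Fin N → Fin N → Fin N → Fin N → K}
    (h : ∀ x y z, F4 C x y z z = 0) : psi K (2 : Fin 4) 3 (toMv C) = 0 := by
  rw [psi_eq_zero_iff]
  intro v hv
  rw [eval_toMv, ← hv]; exact h _ _ _

lemma F4_ofMv {N : ℕ} (P : MvPolynomial (Fin 4) K) (h : ∀ a, P.degreeOf a < N) (x y z w : K) :
    F4 (ofMv N P) x y z w = eval ![x, y, z, w] P := by
  have := eval_toMv (ofMv N P) ![x, y, z, w]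
  rw [toMv_ofMv P h] at this
  rw [this]; rfl

lemma alt_ofMv [Infinite K] {N : ℕ} {P : MvPolynomial (Fin 4) K} (h : ∀ a, P.degreeOf a < N)
    (hs : SymP P) (h01 : psi K (0 : Fin 4) 1 P = 0) (h23 : psi K (2 : Fin 4) 3 P = 0) :
    Alt (ofMv N P) := by
  have s12 : ∀ i j k l, ofMv N P i j k l = ofMv N P j i k l := by
    apply sym12_iff.1
    intro x y z w
    rw [F4_ofMv P h, F4_ofMv P h]
    exact hs.eval01 ![y, x, z, w]
  have s34 : ∀ i j k l, ofMv N P i j k l = ofMv N P i j l k := by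
    apply sym34_iff.1
    intro x y z w
    rw [F4_ofMv P h, F4_ofMv P h]
    exact hs.eval23 ![x, y, w, z]
  refine ⟨s12, ?_, s34, ?_⟩
  · apply (diag12_iff s12).1
    intro x z w
    rw [F4_ofMv P h]
    exact (psi_eq_zero_iff 0 1 P).1 h01 _ rfl
  · apply (diag34_iff s34).1
    intro x y z
    rw [F4_ofMv P h]
    exact (psi_eq_zero_iff 2 3 P).1 h23 _ rfl

/-- **descent for alternating arrays.** -/
theorem descentAlt [Infinite K] (N : ℕ) (G : K → K → K → K → Prop)
    (hG : ∀ x y z w, G x y z w → x ≠ z ∧ x ≠ w ∧ y ≠ z ∧ y ≠ w)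
    (key : ∀ C : Fin N → Fin N → Fin N → Fin N → K, Alt C →
      (∀ x y z w, G x y z w → F4 C x y z w = 0) → ∀ x y w, F4 C x y x w = 0) :
    ∀ C : Fin N → Fin N → Fin N → Fin N → K, Alt C →
      (∀ x y z w, G x y z w → F4 C x y z w = 0) → C = 0 := by
  rcases Nat.eq_zero_or_pos N with rfl | hN
  · intro C _ _
    funext i; exact i.elim0
  intro C hC hv
  apply toMv_eq_zero
  refine descentMv (fun v => G (v 0) (v 1) (v 2) (v 3)) (fun v hv => hG _ _ _ _ hv)
    (fun P => (∀ a, P.degreeOf a < N) ∧ SymP P ∧ psi K (0 : Fin 4) 1 P = 0 ∧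
      psi K (2 : Fin 4) 3 P = 0) ?_ ?_ ?_ (toMv C) ?_ ?_
  · rintro P P1 hne ⟨hd, hs, h01, h23⟩ h
    have hne1 : P1 ≠ 0 := by rintro rfl; apply hne; rw [h, mul_zero]
    refine ⟨fun a => ?_, symP_of_mul hs h, psi01_of_mul h01 h, psi23_of_mul h23 h⟩
    have := hd a
    rw [h, degreeOf_mul_eq Q4_ne_zero hne1] at this
    omega
  · rintro P ⟨_, hs, _, _⟩; exact hs
  · rintro P ⟨hd, hs, h01, h23⟩ hv x y w
    rw [← F4_ofMv P hd]
    refine key _ (alt_ofMv hd hs h01 h23) ?_ x y w
    intro x y z w hg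
    rw [F4_ofMv P hd]
    exact hv ![x, y, z, w] hg
  · exact ⟨degreeOf_toMv hN C, symP_toMv hC.s12 hC.s34, psi01_toMv ((diag12_iff hC.s12).2 hC.d12),
      psi23_toMv ((diag34_iff hC.s34).2 hC.d34)⟩
  · intro v hg
    rw [eval_toMv]; exact hv _ _ _ _ hg

omit [CharP K 2] in
/-- `x ↦ F4 C x y x w` has degree `≤ 2(N-1)`: it vanishes if it vanishes at more points. -/
theorem eq_zero_of_points {N : ℕ} (C : Fin N → Fin N → Fin N → Fin N → K) (y w : K) {ι : Type*}
    (s : Finset ι) (t : ι → K) (ht : Set.InjOn t s) (hs : 2 * N ≤ s.card + 1)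
    (h : ∀ a ∈ s, F4 C (t a) y (t a) w = 0) : ∀ x, F4 C x y x w = 0 := by
  classical
  let p : Polynomial K := ∑ i : Fin N, ∑ j : Fin N, ∑ k : Fin N, ∑ l : Fin N,
    Polynomial.C (C i j k l * y ^ (j : ℕ) * w ^ (l : ℕ)) * Polynomial.X ^ ((i : ℕ) + (k : ℕ))
  have hp : ∀ x, p.eval x = F4 C x y x w := by
    intro x
    simp only [p, F4, Polynomial.eval_finsetSum, Polynomial.eval_mul, Polynomial.eval_C,
      Polynomial.eval_pow, Polynomial.eval_X]
    refine Finset.sum_congr rfl fun i _ => Finset.sum_congr rfl fun j _ =>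
      Finset.sum_congr rfl fun k _ => Finset.sum_congr rfl fun l _ => ?_
    rw [pow_add]; ring
  have hd : p.degree < s.card := by
    rw [← Polynomial.mem_degreeLT]
    refine Submodule.sum_mem _ fun i _ => Submodule.sum_mem _ fun j _ =>
      Submodule.sum_mem _ fun k _ => Submodule.sum_mem _ fun l _ => ?_
    rw [Polynomial.mem_degreeLT]
    refine lt_of_le_of_lt (Polynomial.degree_C_mul_X_pow_le _ _) ?_
    have := i.2
    have := k.2
    exact_mod_cast (by omega : (i : ℕ) + (k : ℕ) < s.card)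
  have h0 : p = 0 := by
    apply Polynomial.eq_zero_of_degree_lt_of_eval_index_eq_zero s ht hd
    intro a ha
    rw [hp]; exact h a ha
  intro x
  rw [← hp, h0, Polynomial.eval_zero]

end Crest.Agent.R36.Div413
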