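import Mathlib
import Crest.Agent.R36.BIP230d
import Crest.Agent.R36.Glue172
import Crest.Agent.R36.Gen259
import Crest.Agent.R36.T635
import Crest.Agent.R36.Exch413

/-! R36 (helper230): `K_n`, `n = 2e+5`, in the non-symmetric form of helper21 (#12414):
the polynomial `P(X0,X1,X2,X3)` has degree `≤ e+1` in `X0, X2` and `≤ e` in `X1, X3`; in the
notation of `BIP230c` its value at `(a,b,c,d)` is `PP 0 ρ (t a) (t c) (t b) (t d)`. -/

set_option autoImplicit false
open Polynomial Finset

namespace Crest.Agent.R36.KN230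
open Crest.Agent.R36.BIP230
open Crest.Agent.R036

/-! ### isotropy bound, two maps -/

theorem iso_bound2 {F : Type*} [Field F] {Γ : Type*} [Fintype Γ] {M : Type*} [AddCommGroup M]
    [Module F M] [FiniteDimensional F M] (lam : Γ → F) (hlam : ∀ g, lam g ≠ 0)
    (E E' : M →ₗ[F] (Γ → F)) (hE : Function.Injective E) (hE' : Function.Injective E')
    (hiso : ∀ u v : M, ∑ g, lam g * E u g * E' v g = 0) :
    2 * Module.finrank F M ≤ Fintype.card Γ := by
  classical
  let W : Submodule F (Γ → F) := LinearMap.range E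
  let W' : Submodule F (Γ → F) := LinearMap.range E'
  have hW : Module.finrank F W = Module.finrank F M := LinearMap.finrank_range_of_inj hE
  have hW' : Module.finrank F W' = Module.finrank F M := LinearMap.finrank_range_of_inj hE'
  let φ : (Γ → F) →ₗ[F] Module.Dual F (Γ → F) :=
    LinearMap.mk₂ F (fun u v => ∑ g, lam g * u g * v g)
      (by intro u u' v; simp only [Pi.add_apply]; rw [← Finset.sum_add_distrib]
          exact Finset.sum_congr rfl fun g _ => by ring)
      (by intro c u v; simp only [Pi.smul_apply, smul_eq_mul, Finset.mul_sum]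
          exact Finset.sum_congr rfl fun g _ => by ring)
      (by intro u v v'; simp only [Pi.add_apply]; rw [← Finset.sum_add_distrib]
          exact Finset.sum_congr rfl fun g _ => by ring)
      (by intro c u v; simp only [Pi.smul_apply, smul_eq_mul, Finset.mul_sum]
          exact Finset.sum_congr rfl fun g _ => by ring)
  have hφ : ∀ u v, φ u v = ∑ g, lam g * u g * v g := fun u v => rfl
  have hinj : Function.Injective φ := by
    rw [← LinearMap.ker_eq_bot, LinearMap.ker_eq_bot']
    intro u hu
    funext g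
    have h1 : φ u (Pi.single g 1) = 0 := by rw [hu]; rfl
    rw [hφ, Finset.sum_eq_single g] at h1
    · simp only [Pi.single_eq_same, mul_one] at h1
      simpa using (mul_eq_zero.1 h1).resolve_left (hlam g)
    · intro b _ hb; rw [Pi.single_eq_of_ne hb, mul_zero]
    · intro h; exact absurd (Finset.mem_univ g) h
  have hle : W.map φ ≤ W'.dualAnnihilator := by
    rintro _ ⟨u, ⟨a, rfl⟩, rfl⟩
    rw [Submodule.mem_dualAnnihilator]
    rintro _ ⟨b, rfl⟩
    rw [hφ]; exact hiso a b
  have h2 : Module.finrank F (W.map φ) = Module.finrank F W :=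
    (Submodule.equivMapOfInjective φ hinj W).finrank_eq.symm
  have h3 := Submodule.finrank_mono hle
  have h4 := Subspace.finrank_add_finrank_dualAnnihilator_eq W'
  rw [Module.finrank_fintype_fun_eq_card] at h4
  omega

variable {F : Type*} [Field F] [CharP F 2] {n : ℕ} {t : Fin n → F}

/-- **(E)** -/
theorem E_zeroK (ht : Function.Injective t) {N : ℕ} (hN : N + 2 ≤ n)
    (W : Fin n → Fin n → Fin n → ZMod 2) (U : Fin n → Fin n → Fin n → Fin n → F)
    (h1 : ∀ b c d, PB t N (fun a => U a b c d)) (h2 : ∀ a c d, PB t N (fun b => U a b c d))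
    (h3 : ∀ a b d, PB t N (fun c => U a b c d)) (h4 : ∀ a b c, PB t N (fun d => U a b c d)) :
    S4 t t (fun a b c d => cz (G172.xK W a b c d)) U = 0 := by
  have e : (fun a b c d => (cz (G172.xK W a b c d) : F)) =
      fun a b c d => ((((cz (G172.iv (a < c) + G172.iv (b < c) + W c a b) : F)) +
        cz (G172.iv (a < d) + G172.iv (b < d) + W d a b)) + cz (W a c d)) + cz (W b c d) := by
    funext a b c d
    rw [← map_add, ← map_add, ← map_add]
    congr 1
    unfold G172.xK; ring
  rw [e, S4_add, S4_add, S4_add,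
    S4_l ht hN U h4 (fun a b c => cz (G172.iv (a < c) + G172.iv (b < c) + W c a b)),
    S4_j ht hN U h3 (fun a b d => cz (G172.iv (a < d) + G172.iv (b < d) + W d a b)),
    S4_k ht hN U h2 (fun a c d => cz (W a c d)),
    S4_i ht hN U h1 (fun b c d => cz (W b c d))]
  simp

/-! ### combinatorics of `xK` -/

theorem two0 : (2 : ZMod 2) = 0 := by decide

theorem xK_ab {W : Fin n → Fin n → Fin n → ZMod 2} (hW0 : ∀ v a, W v a a = 0) (a c d : Fin n) :
    G172.xK W a a c d = 0 := by
  unfold G172.xK
  rw [hW0, hW0]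
  linear_combination (G172.iv (a < c) + G172.iv (a < d) + W a c d) * two0

theorem xK_cd {W : Fin n → Fin n → Fin n → ZMod 2} (hW0 : ∀ v a, W v a a = 0) (a b c : Fin n) :
    G172.xK W a b c c = 0 := by
  unfold G172.xK
  rw [hW0, hW0]
  linear_combination (G172.iv (a < c) + G172.iv (b < c) + W c a b) * two0

/-- the tournament at `v` -/
theorem xK_tour (W : Fin n → Fin n → Fin n → ZMod 2)
    {v b d : Fin n} (hb : b ≠ v) (hd : d ≠ v) (hbd : b ≠ d) :
    G172.xK W v b v d + G172.xK W v d v b = 1 := by
  unfold G172.xK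
  have h1 : ∀ x y : Fin n, x ≠ y → G172.iv (x < y) + G172.iv (y < x) = 1 := by
    intro x y hxy
    rcases lt_or_gt_of_ne hxy with h | h
    · simp [G172.iv, h, not_lt.2 h.le]
    · simp [G172.iv, h, not_lt.2 h.le]
  linear_combination h1 v d hd.symm + h1 b v hb + h1 b d hbd +
    (G172.iv (v < v) + W v v d + W b v d + W d v b + W v v b + 1) * two0

/-- the symmetry `(a,b,c,d) ↦ (b,a,d,c)` -/
theorem xK_swap {W : Fin n → Fin n → Fin n → ZMod 2} (hW : ∀ v a b, W v a b = W v b a)
    (a b c d : Fin n) : G172.xK W b a d c = G172.xK W a b c d := by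
  unfold G172.xK
  rw [hW b d c, hW a d c, hW c b a, hW d b a]
  ring

end Crest.Agent.R36.KN230
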