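import Mathlib
import Crest.Agent.R36.KN230a

/-! R36 (helper230): `K_n`, `n = 2e+5`: the localisation at a vertex and the diagonal step. -/

set_option autoImplicit false
open Polynomial Finset

namespace Crest.Agent.R36.KN230
open Crest.Agent.R36.BIP230
open Crest.Agent.R036 Crest.Agent.R036.RedK

variable {F : Type*} [Field F] [CharP F 2] {n : ℕ} {t : Fin n → F}

/-- **localisation at `v`**. -/
theorem loc {e : ℕ} (hn : n = 2 * e + 5) (ht : Function.Injective t)
    {W : Fin n → Fin n → Fin n → ZMod 2} (hW0 : ∀ v a, W v a a = 0)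
    (ρ : Cx (e + 1) e → F) (s : ℕ)
    (h1 : ∀ a b c d, Dist4 a b c d → G172.xK W a b c d = 1 → PP s ρ (t a) (t c) (t b) (t d) = 0)
    (v : Fin n) (A B : Finset (Fin n)) (hAB : Disjoint A B) (hU : A ∪ B = Finset.univ.erase v)
    (hA : A.card = e + 2) (hB : B.card = e + 2) :
    ∑ b ∈ Finset.univ.erase v, ∑ d ∈ Finset.univ.erase v,
      (cz (G172.xK W v b v d) * (wt t b * (t b + t v)) * (wt t d * (t d + t v)) *
        PP s ρ (t v) (t v) (t b) (t d)) * (∏ q ∈ A, (t b + t q)) * (∏ q ∈ B, (t d + t q)) = 0 := by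
  classical
  let hA' : F → F := fun x => ∏ q ∈ A, (x + t q)
  let hB' : F → F := fun x => ∏ q ∈ B, (x + t q)
  have hz : ∀ u, u ≠ v → hA' (t u) * hB' (t u) = 0 := by
    intro u hu
    have hmem : u ∈ A ∪ B := by rw [hU]; simp [hu]
    rcases Finset.mem_union.1 hmem with h | h
    · have : hA' (t u) = 0 := Finset.prod_eq_zero h (CharTwo.add_self_eq_zero _)
      rw [this, zero_mul]
    · have : hB' (t u) = 0 := Finset.prod_eq_zero h (CharTwo.add_self_eq_zero _)
      rw [this, mul_zero]
  have hvA : v ∉ A := fun h => by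
    have : v ∈ A ∪ B := Finset.mem_union_left _ h
    rw [hU] at this; simp at this
  have hvB : v ∉ B := fun h => by
    have : v ∈ A ∪ B := Finset.mem_union_right _ h
    rw [hU] at this; simp at this
  have hA1 : hA' (t v) ≠ 0 := Finset.prod_ne_zero_iff.2 fun q hq =>
    add_ne_zero_of_ne (ht.ne (fun h => hvA (h ▸ hq)))
  have hB1 : hB' (t v) ≠ 0 := Finset.prod_ne_zero_iff.2 fun q hq =>
    add_ne_zero_of_ne (ht.ne (fun h => hvB (h ▸ hq)))
  have PBA : PB t (e + 2) (fun i => hA' (t i)) := by
    have := PB.prod (t := t) A (fun q i => t i + t q) fun q _ => PB.lin (t q)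
    rwa [hA] at this
  have PBB : PB t (e + 2) (fun i => hB' (t i)) := by
    have := PB.prod (t := t) B (fun q i => t i + t q) fun q _ => PB.lin (t q)
    rwa [hB] at this
  let U : Fin n → Fin n → Fin n → Fin n → F := fun a b c d =>
    (hA' (t a) * hA' (t b) * hB' (t c) * hB' (t d)) * ((t b + t v) * (t d + t v)) *
      PP s ρ (t a) (t c) (t b) (t d)
  have hE := E_zeroK (N := 2 * e + 3) ht (by omega) W U
    (fun b c d => by
      have h := ((((PBA.mul (PB.const (N := 0) (hA' (t b)))).mul
        (PB.const (N := 0) (hB' (t c)))).mul (PB.const (N := 0) (hB' (t d)))).mul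
        (PB.const (N := 0) ((t b + t v) * (t d + t v)))).mul
        (PB_PP_x (t := t) s ρ (t c) (t b) (t d))
      exact h.mono (by omega))
    (fun a c d => by
      have h := (((((PB.const (N := 0) (hA' (t a))).mul PBA).mul
        (PB.const (N := 0) (hB' (t c)))).mul (PB.const (N := 0) (hB' (t d)))).mul
        ((PB.lin (t := t) (t v)).mul (PB.const (N := 0) (t d + t v)))).mul
        (PB_PP_z (τ := t) s ρ (t a) (t c) (t d))
      exact h.mono (by omega))
    (fun a b d => by
      have h := ((((PB.const (N := 0) (hA' (t a) * hA' (t b))).mul PBB).mul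
        (PB.const (N := 0) (hB' (t d)))).mul
        (PB.const (N := 0) ((t b + t v) * (t d + t v)))).mul
        (PB_PP_y (t := t) s ρ (t a) (t b) (t d))
      exact h.mono (by omega))
    (fun a b c => by
      have h := (((PB.const (N := 0) (hA' (t a) * hA' (t b) * hB' (t c))).mul PBB).mul
        ((PB.const (N := 0) (t b + t v)).mul (PB.lin (t := t) (t v)))).mul
        (PB_PP_w (τ := t) s ρ (t a) (t c) (t b))
      exact h.mono (by omega))
  have hterm : ∀ a b c d, (a ≠ v ∨ c ≠ v ∨ b = v ∨ d = v) →
      (cz (G172.xK W a b c d) : F) * (wt t a * wt t b * wt t c * wt t d * U a b c d) = 0 := by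
    intro a b c d h
    by_cases hab : a = b
    · subst hab; rw [xK_ab hW0]; simp
    by_cases hcd : c = d
    · subst hcd; rw [xK_cd hW0]; simp
    by_cases hbv : b = v
    · subst hbv; simp only [U, CharTwo.add_self_eq_zero, zero_mul, mul_zero]
    by_cases hdv : d = v
    · subst hdv; simp only [U, CharTwo.add_self_eq_zero, zero_mul, mul_zero]
    by_cases hac : a = c
    · subst hac
      have hav : a ≠ v := by tauto
      have : U a b a d = (hA' (t a) * hB' (t a)) * (hA' (t b) * hB' (t d) *
        ((t b + t v) * (t d + t v)) * PP s ρ (t a) (t a) (t b) (t d)) := by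
        simp only [U]; ring
      rw [this, hz a hav]; simp
    by_cases had : a = d
    · subst had
      have : U a b c a = (hA' (t a) * hB' (t a)) * (hA' (t b) * hB' (t c) *
        ((t b + t v) * (t a + t v)) * PP s ρ (t a) (t c) (t b) (t a)) := by
        simp only [U]; ring
      rw [this, hz a hdv]; simp
    by_cases hbc : b = c
    · subst hbc
      have : U a b b d = (hA' (t b) * hB' (t b)) * (hA' (t a) * hB' (t d) *
        ((t b + t v) * (t d + t v)) * PP s ρ (t a) (t b) (t b) (t d)) := by
        simp only [U]; ring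
      rw [this, hz b hbv]; simp
    by_cases hbd : b = d
    · subst hbd
      have : U a b c b = (hA' (t b) * hB' (t b)) * (hA' (t a) * hB' (t c) *
        ((t b + t v) * (t b + t v)) * PP s ρ (t a) (t c) (t b) (t b)) := by
        simp only [U]; ring
      rw [this, hz b hbv]; simp
    rw [cz_ite]
    by_cases hx : G172.xK W a b c d = 1
    · rw [if_pos hx]
      simp only [U, h1 a b c d ⟨hab, hac, had, hbc, hbd, hcd⟩ hx, mul_zero]
    · rw [if_neg hx]
  have hS : S4 t t (fun a b c d => cz (G172.xK W a b c d)) U =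
      (wt t v * wt t v * (hA' (t v) * hB' (t v))) *
      ∑ b ∈ Finset.univ.erase v, ∑ d ∈ Finset.univ.erase v,
      (cz (G172.xK W v b v d) * (wt t b * (t b + t v)) * (wt t d * (t d + t v)) *
        PP s ρ (t v) (t v) (t b) (t d)) * (∏ q ∈ A, (t b + t q)) * (∏ q ∈ B, (t d + t q)) := by
    unfold S4
    rw [Finset.sum_eq_single v]
    rotate_left
    · intro a _ ha
      exact Finset.sum_eq_zero fun b _ => Finset.sum_eq_zero fun c _ =>
        Finset.sum_eq_zero fun d _ => hterm a b c d (Or.inl ha)
    · intro h; exact absurd (Finset.mem_univ _) h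
    rw [← Finset.add_sum_erase _ _ (Finset.mem_univ v)]
    rw [Finset.sum_eq_zero (fun c _ => Finset.sum_eq_zero fun d _ =>
      hterm v v c d (Or.inr (Or.inr (Or.inl rfl)))), zero_add, Finset.mul_sum]
    refine Finset.sum_congr rfl fun b hb => ?_
    rw [Finset.sum_eq_single v]
    rotate_left
    · intro c _ hc
      exact Finset.sum_eq_zero fun d _ => hterm v b c d (Or.inr (Or.inl hc))
    · intro h; exact absurd (Finset.mem_univ _) h
    rw [← Finset.add_sum_erase _ _ (Finset.mem_univ v),
      hterm v b v v (Or.inr (Or.inr (Or.inr rfl))), zero_add, Finset.mul_sum]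
    refine Finset.sum_congr rfl fun d hd => ?_
    simp only [U, hA', hB']
    ring
  rw [hE] at hS
  have hne : wt t v * wt t v * (hA' (t v) * hB' (t v)) ≠ 0 :=
    mul_ne_zero (mul_ne_zero (wt_ne_zero ht v) (wt_ne_zero ht v)) (mul_ne_zero hA1 hB1)
  exact (mul_eq_zero.1 hS.symm).resolve_left hne

end Crest.Agent.R36.KN230
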