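import Mathlib
import Crest.Agent.R36.KN230b

/-! R36 (helper230): `K_n`, `n = 2e+5`: diagonal step (exchange + tournament theorem), injectivity. -/

set_option autoImplicit false
open Polynomial Finset

namespace Crest.Agent.R36.KN230
open Crest.Agent.R36.BIP230
open Crest.Agent.R036 Crest.Agent.R036.RedK

variable {F : Type*} [Field F] [CharP F 2] {n : ℕ} {t : Fin n → F}

omit [CharP F 2] in
theorem wt_eq_mul (ht : Function.Injective t) [CharP F 2] (v o : Fin n) (hvo : o ≠ v) (b : Fin n)
    (hbv : b ≠ v) (hbo : b ≠ o) :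
    (∏ l ∈ ((Finset.univ.erase v).erase o).erase b, (t b + t l))⁻¹ =
      wt t b * (t b + t v) * (t b + t o) := by
  classical
  have e1 : (Finset.univ.erase b : Finset (Fin n)) =
      insert v (insert o (((Finset.univ.erase v).erase o).erase b)) := by
    ext x
    simp only [Finset.mem_erase, Finset.mem_insert, Finset.mem_univ, and_true]
    by_cases h1 : x = v
    · subst h1; simp [Ne.symm hbv]
    · by_cases h2 : x = o
      · subst h2; simp [Ne.symm hbo]
      · simp [h1, h2]
  have n1 : v ∉ insert o (((Finset.univ.erase v).erase o).erase b) := by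
    simp [Ne.symm hvo]
  have n2 : o ∉ ((Finset.univ.erase v).erase o).erase b := by simp
  have h1 : t b + t v ≠ 0 := add_ne_zero_of_ne (ht.ne hbv)
  have h2 : t b + t o ≠ 0 := add_ne_zero_of_ne (ht.ne hbo)
  unfold wt
  rw [e1, Finset.prod_insert n1, Finset.prod_insert n2]
  field_simp

/-- **diagonal step** -/
theorem diag_zeroK {e : ℕ} (hn : n = 2 * e + 5)
    (D : Fin n → Derivation ℤ F F) (hD : ∀ i j, D i (t j) = if i = j then 1 else 0)
    {W : Fin n → Fin n → Fin n → ZMod 2} (hW0 : ∀ v a, W v a a = 0)
    (ρ : Cx (e + 1) e → F) (s : ℕ) (hs : ∀ g : Cx (e + 1) e, (g.1.1 : ℕ) < s → ρ g = 0)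
    (h0 : ∀ a b c d, Dist4 a b c d → G172.xK W a b c d = 1 → PP 0 ρ (t a) (t c) (t b) (t d) = 0)
    (v : Fin n) (a b : Fin (e + 1)) :
    ∑ g : Ix (e + 1), ρ (g, a, b) * mon s g (t v) (t v) = 0 := by
  classical
  have ht : Function.Injective t := T635.inj_of_D t D hD
  have hfac : ∀ x y z w : F, PP 0 ρ x y z w = (x + y) ^ s * PP s ρ x y z w := by
    intro x y z w
    unfold PP
    rw [Finset.mul_sum]
    refine Finset.sum_congr rfl fun g _ => ?_
    by_cases hg : (g.1.1 : ℕ) < s
    · rw [hs g hg]; ring
    · have : (g.1.1 : ℕ) - 0 = s + ((g.1.1 : ℕ) - s) := by omega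
      unfold mon
      rw [this, pow_add]; ring
  have h1 : ∀ a b c d, Dist4 a b c d → G172.xK W a b c d = 1 →
      PP s ρ (t a) (t c) (t b) (t d) = 0 := by
    intro a b c d h hx
    have h2 := h0 a b c d h hx
    rw [hfac] at h2
    exact (mul_eq_zero.1 h2).resolve_left (pow_ne_zero _ (add_ne_zero_of_ne (ht.ne h.2.1)))
  let p : Fin (e + 1) → Fin (e + 1) → F := fun a b =>
    ∑ g : Ix (e + 1), ρ (g, a, b) * mon s g (t v) (t v)
  have hev : ∀ z w, PP s ρ (t v) (t v) z w = T635.ev p z w := by
    intro z w
    unfold PP T635.ev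
    rw [Fintype.sum_prod_type]
    simp only [Fintype.sum_prod_type, Finset.sum_mul, p]
    rw [Finset.sum_comm]
    refine Finset.sum_congr rfl fun a _ => ?_
    rw [Finset.sum_comm]
    refine Finset.sum_congr rfl fun b _ => ?_
    refine Finset.sum_congr rfl fun g _ => ?_
    ring
  have hcE : (Finset.univ.erase v : Finset (Fin n)).card = 2 * (e + 2) := by
    rw [Finset.card_erase_of_mem (Finset.mem_univ _), Finset.card_univ, Fintype.card_fin]
    omega
  obtain ⟨o, ho⟩ : ∃ o, o ∈ (Finset.univ.erase v : Finset (Fin n)) := by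
    apply Finset.card_pos.1
    omega
  have hov : o ≠ v := Finset.ne_of_mem_erase ho
  have hex := Exch413.exch' t (Finset.univ.erase v) ht.injOn (e + 2) (by omega) hcE
    (fun b d => cz (G172.xK W v b v d) * (wt t b * (t b + t v)) * (wt t d * (t d + t v)) *
        PP s ρ (t v) (t v) (t b) (t d))
    (fun A B hAB hU hA hB => loc hn ht hW0 ρ s h1 v A B hAB hU hA hB) o ho
  let S : Finset (Fin n) := (Finset.univ.erase v).erase o
  have hSv : ∀ i : {x // x ∈ S}, (i : Fin n) ≠ v := fun i =>
    Finset.ne_of_mem_erase (Finset.mem_of_mem_erase i.2)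
  have hSo : ∀ i : {x // x ∈ S}, (i : Fin n) ≠ o := fun i => Finset.ne_of_mem_erase i.2
  have hcS : Fintype.card {x // x ∈ S} = 2 * e + 3 := by
    rw [Fintype.card_coe, Finset.card_erase_of_mem ho, hcE]; omega
  have hom : ∀ i : {x // x ∈ S}, T635.om (fun i : {x // x ∈ S} => t i) i =
      wt t i * (t i + t v) * (t i + t o) := by
    intro i
    rw [← wt_eq_mul ht v o hov i (hSv i) (hSo i)]
    unfold T635.om
    congr 1
    refine Finset.prod_bij' (i := fun l _ => (l : Fin n))
      (j := fun l hl => (⟨l, Finset.mem_of_mem_erase hl⟩ : {x // x ∈ S})) ?_ ?_ ?_ ?_ ?_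
    · intro l hl
      refine Finset.mem_erase.2 ⟨fun h => ?_, l.2⟩
      exact (Finset.ne_of_mem_erase hl) (Subtype.ext h)
    · intro l hl
      refine Finset.mem_erase.2 ⟨fun h => ?_, Finset.mem_univ _⟩
      exact (Finset.ne_of_mem_erase hl) (congrArg Subtype.val h)
    · intro l hl; rfl
    · intro l hl; rfl
    · intro l hl; rfl
  have key := T635.tform (fun i : {x // x ∈ S} => t i) (fun i : {x // x ∈ S} => D i)
    (fun i j => by
      rw [hD]
      by_cases h : i = j
      · simp [h]
      · have : (i : Fin n) ≠ j := fun hh => h (Subtype.ext hh)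
        simp [h, this]) e hcS (fun i j => G172.xK W v i v j)
    (fun i j hij => xK_tour W (hSv i) (hSv j) (fun hh => hij (Subtype.ext hh))) p
    (fun a b ha hb => by
      have h2 := hex a (by omega) b (by omega)
      rw [← Finset.sum_coe_sort S] at h2
      refine Eq.trans ?_ h2
      refine Finset.sum_congr rfl fun i _ => ?_
      rw [← Finset.sum_coe_sort S]
      refine Finset.sum_congr rfl fun j _ => ?_
      rw [hom, hom, hev]
      by_cases hij : i = j
      · subst hij
        simp [CharTwo.add_self_eq_zero]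
      · by_cases hx : G172.xK W v i v j = 1
        · rw [if_pos ⟨hx, hij⟩, hx, map_one]
          ring
        · rw [if_neg (fun h => hx h.1)]
          have : G172.xK W v i v j = 0 := by
            generalize G172.xK W v i v j = y at hx
            revert y; decide
          rw [this, map_zero]
          ring)
  exact congrFun (congrFun key a) b

/-- **injectivity (N)** -/
theorem injK {e : ℕ} (hn : n = 2 * e + 5)
    (D : Fin n → Derivation ℤ F F) (hD : ∀ i j, D i (t j) = if i = j then 1 else 0)
    {W : Fin n → Fin n → Fin n → ZMod 2} (hW0 : ∀ v a, W v a a = 0)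
    (ρ : Cx (e + 1) e → F)
    (h0 : ∀ a b c d, Dist4 a b c d → G172.xK W a b c d = 1 → PP 0 ρ (t a) (t c) (t b) (t d) = 0) :
    ρ = 0 := by
  have ht : Function.Injective t := T635.inj_of_D t D hD
  have main : ∀ s : ℕ, ∀ g : Cx (e + 1) e, (g.1.1 : ℕ) < s → ρ g = 0 := by
    intro s
    induction s with
    | zero => intro g hg; exact absurd hg (Nat.not_lt_zero _)
    | succ s ih =>
      rintro ⟨⟨S, c0⟩, a, b⟩ hg
      rcases lt_or_eq_of_le (Nat.lt_succ_iff.1 hg) with h | h
      · exact ih _ h
      replace h : (S : ℕ) = s := h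
      have hdz := diag_zeroK hn D hD hW0 ρ s ih h0
      let f : F[X] := ∑ c : Fin (2 * ((e + 1) - S) + 1), C (ρ (⟨S, c⟩, a, b)) * X ^ (c : ℕ)
      have hfd : f.natDegree < n := by
        refine lt_of_le_of_lt (natDegree_sum_le_of_forall_le (n := 2 * ((e + 1) - S)) _ _
          fun c _ => ?_) (by omega)
        exact (natDegree_C_mul_X_pow_le _ _).trans (Nat.lt_succ_iff.1 c.2)
      have hev : ∀ i, f.eval (t i) = 0 := by
        intro i
        rw [← hdz i a b, Fintype.sum_sigma, Finset.sum_eq_single S]
        · simp only [f, eval_finsetSum, eval_mul, eval_C, eval_pow, eval_X]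
          refine Finset.sum_congr rfl fun c _ => ?_
          change _ = ρ (⟨S, c⟩, a, b) * ((t i + t i) ^ ((S : ℕ) - s) * t i ^ (((c : ℕ) + 1) / 2) *
            t i ^ ((c : ℕ) / 2))
          have h3 : (S : ℕ) - s = 0 := by omega
          rw [h3, pow_zero, one_mul, ← pow_add]
          congr 2
          omega
        · intro S' _ hS'
          refine Finset.sum_eq_zero fun c _ => ?_
          rcases lt_or_gt_of_ne (fun hh => hS' (Fin.ext (hh.trans h.symm)) : (S' : ℕ) ≠ s) with h' | h'
          · rw [ih (⟨S', c⟩, a, b) h', zero_mul]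
          · unfold mon
            rw [CharTwo.add_self_eq_zero, zero_pow (by simp only; omega), zero_mul, zero_mul,
              mul_zero]
        · intro h; exact absurd (Finset.mem_univ _) h
      have hf0 : f = 0 :=
        eq_zero_of_natDegree_lt_card_of_eval_eq_zero f ht hev (by simpa using hfd)
      have hc := congrArg (fun q : F[X] => q.coeff (c0 : ℕ)) hf0
      simp only [f, finsetSum_coeff, coeff_C_mul, coeff_X_pow, coeff_zero, mul_ite, mul_one,
        mul_zero] at hc
      rw [Finset.sum_eq_single c0] at hc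
      · simpa using hc
      · intro c _ hc'
        rw [if_neg]
        intro h'; exact hc' (Fin.ext h'.symm)
      · intro h; exact absurd (Finset.mem_univ _) h
  funext g
  exact main (g.1.1 + 1) g (Nat.lt_succ_self _)

end Crest.Agent.R36.KN230
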