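import Mathlib
import Crest.Agent.R36.KN230c

/-! R36 (helper230): `K_n`: isotropy, dimension count, Harary-Hill. -/

set_option autoImplicit false
open Polynomial Finset

namespace Crest.Agent.R36.KN230
open Crest.Agent.R36.BIP230
open Crest.Agent.R036 Crest.Agent.R036.RedK

section
variable {F : Type*} [Field F] [CharP F 2] {n : ℕ} {t : Fin n → F}

/-- evaluation at the cells -/
def EV1 {e : ℕ} (t : Fin n → F) (W : Fin n → Fin n → Fin n → ZMod 2) :
    (Cx (e + 1) e → F) →ₗ[F] (G172.SK W → F) where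
  toFun ρ γ := PP 0 ρ (t γ.1.1) (t γ.1.2.2.1) (t γ.1.2.1) (t γ.1.2.2.2)
  map_add' u v := by
    funext γ
    simp only [PP, Pi.add_apply, add_mul, Finset.sum_add_distrib]
  map_smul' c u := by
    funext γ
    simp only [PP, Pi.smul_apply, smul_eq_mul, RingHom.id_apply, Finset.mul_sum, mul_assoc]

/-- evaluation at the swapped cells -/
def EV2 {e : ℕ} (t : Fin n → F) (W : Fin n → Fin n → Fin n → ZMod 2) :
    (Cx (e + 1) e → F) →ₗ[F] (G172.SK W → F) where
  toFun ρ γ := PP 0 ρ (t γ.1.2.1) (t γ.1.2.2.2) (t γ.1.1) (t γ.1.2.2.1)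
  map_add' u v := by
    funext γ
    simp only [PP, Pi.add_apply, add_mul, Finset.sum_add_distrib]
  map_smul' c u := by
    funext γ
    simp only [PP, Pi.smul_apply, smul_eq_mul, RingHom.id_apply, Finset.mul_sum, mul_assoc]

theorem coreK {e : ℕ} (hn : n = 2 * e + 5)
    (D : Fin n → Derivation ℤ F F) (hD : ∀ i j, D i (t j) = if i = j then 1 else 0)
    {W : Fin n → Fin n → Fin n → ZMod 2} (hW : ∀ v a b, W v a b = W v b a)
    (hW0 : ∀ v a, W v a a = 0) :
    2 * ((e + 2) ^ 2 * (e + 1) ^ 2) ≤ (G172.SK W).card := by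
  classical
  have ht : Function.Injective t := T635.inj_of_D t D hD
  let lam : G172.SK W → F := fun γ =>
    wt t γ.1.1 * wt t γ.1.2.1 * wt t γ.1.2.2.1 * wt t γ.1.2.2.2 *
    ((t γ.1.1 + t γ.1.2.2.1) * (t γ.1.1 + t γ.1.2.2.2) * ((t γ.1.2.1 + t γ.1.2.2.1) *
      (t γ.1.2.1 + t γ.1.2.2.2)))
  have hlam : ∀ γ, lam γ ≠ 0 := by
    rintro ⟨q, hq⟩
    obtain ⟨⟨h1, h2, h3, h4, h5, h6⟩, -⟩ := G172.mem_SK.1 hq
    exact mul_ne_zero (mul_ne_zero (mul_ne_zero (mul_ne_zero (wt_ne_zero ht _) (wt_ne_zero ht _))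
      (wt_ne_zero ht _)) (wt_ne_zero ht _))
      (mul_ne_zero (mul_ne_zero (add_ne_zero_of_ne (ht.ne h2)) (add_ne_zero_of_ne (ht.ne h3)))
        (mul_ne_zero (add_ne_zero_of_ne (ht.ne h4)) (add_ne_zero_of_ne (ht.ne h5))))
  have hinj : Function.Injective (EV1 (e := e) t W) := by
    rw [← LinearMap.ker_eq_bot, LinearMap.ker_eq_bot']
    intro ρ hρ
    refine injK hn D hD hW0 ρ fun a b c d h hx => ?_
    exact congrFun hρ ⟨(a, b, c, d), G172.mem_SK.2 ⟨h, hx⟩⟩
  have hinj' : Function.Injective (EV2 (e := e) t W) := by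
    rw [← LinearMap.ker_eq_bot, LinearMap.ker_eq_bot']
    intro ρ hρ
    refine injK hn D hD hW0 ρ fun a b c d h hx => ?_
    obtain ⟨h1, h2, h3, h4, h5, h6⟩ := h
    exact congrFun hρ ⟨(b, a, d, c), G172.mem_SK.2
      ⟨⟨h1.symm, h5, h4, h3, h2, h6.symm⟩, (xK_swap hW a b c d).trans hx⟩⟩
  have hiso : ∀ u v : Cx (e + 1) e → F, ∑ γ, lam γ * EV1 t W u γ * EV2 t W v γ = 0 := by
    intro u v
    let U : Fin n → Fin n → Fin n → Fin n → F := fun a b c d =>
      ((t a + t c) * (t a + t d) * ((t b + t c) * (t b + t d))) *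
        (PP 0 u (t a) (t c) (t b) (t d) * PP 0 v (t b) (t d) (t a) (t c))
    have hE := E_zeroK (N := 2 * e + 3) ht (by omega) W U
      (fun b c d => by
        have h := (((PB.lin (t := t) (t c)).mul (PB.lin (t := t) (t d))).mul
          (PB.const (N := 0) ((t b + t c) * (t b + t d)))).mul
          ((PB_PP_x (t := t) 0 u (t c) (t b) (t d)).mul (PB_PP_z (τ := t) 0 v (t b) (t d) (t c)))
        exact h.mono (by omega))
      (fun a c d => by
        have h := ((PB.const (N := 0) ((t a + t c) * (t a + t d))).mul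
          ((PB.lin (t := t) (t c)).mul (PB.lin (t := t) (t d)))).mul
          ((PB_PP_z (τ := t) 0 u (t a) (t c) (t d)).mul (PB_PP_x (t := t) 0 v (t d) (t a) (t c)))
        exact h.mono (by omega))
      (fun a b d => by
        have h := (((PB.lin' (t := t) (t a)).mul (PB.const (N := 0) (t a + t d))).mul
          ((PB.lin' (t := t) (t b)).mul (PB.const (N := 0) (t b + t d)))).mul
          ((PB_PP_y (t := t) 0 u (t a) (t b) (t d)).mul (PB_PP_w (τ := t) 0 v (t b) (t d) (t a)))
        exact h.mono (by omega))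
      (fun a b c => by
        have h := (((PB.const (N := 0) (t a + t c)).mul (PB.lin' (t := t) (t a))).mul
          ((PB.const (N := 0) (t b + t c)).mul (PB.lin' (t := t) (t b)))).mul
          ((PB_PP_w (τ := t) 0 u (t a) (t c) (t b)).mul (PB_PP_y (t := t) 0 v (t b) (t a) (t c)))
        exact h.mono (by omega))
    let G : Fin n × Fin n × Fin n × Fin n → F := fun q =>
      wt t q.1 * wt t q.2.1 * wt t q.2.2.1 * wt t q.2.2.2 * U q.1 q.2.1 q.2.2.1 q.2.2.2
    have h1 : ∑ γ : G172.SK W, lam γ * EV1 t W u γ * EV2 t W v γ = ∑ q ∈ G172.SK W, G q := by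
      rw [← Finset.sum_coe_sort (G172.SK W) G]
      refine Finset.sum_congr rfl fun γ _ => ?_
      simp only [lam, G, U, EV1, EV2, LinearMap.coe_mk, AddHom.coe_mk]
      ring
    rw [h1, G172.SK, Finset.sum_filter, Fintype.sum_prod_type]
    simp only [Fintype.sum_prod_type]
    have h2 : S4 t t (fun a b c d => cz (G172.xK W a b c d)) U =
        ∑ a, ∑ b, ∑ c, ∑ d, (if Dist4 a b c d ∧ G172.xK W a b c d = 1 then G (a, b, c, d)
          else 0) := by
      unfold S4
      refine Finset.sum_congr rfl fun a _ => ?_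
      refine Finset.sum_congr rfl fun b _ => ?_
      refine Finset.sum_congr rfl fun c _ => ?_
      refine Finset.sum_congr rfl fun d _ => ?_
      rw [cz_ite]
      by_cases hx : G172.xK W a b c d = 1
      · by_cases hab : a = b
        · subst hab; rw [xK_ab hW0] at hx; exact absurd hx (by decide)
        by_cases hcd : c = d
        · subst hcd; rw [xK_cd hW0] at hx; exact absurd hx (by decide)
        rw [if_pos hx]
        by_cases hac : a = c
        · subst hac
          rw [if_neg (fun h => h.1.2.1 rfl)]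
          simp only [U, CharTwo.add_self_eq_zero, zero_mul, mul_zero]
        by_cases had : a = d
        · subst had
          rw [if_neg (fun h => h.1.2.2.1 rfl)]
          simp only [U, CharTwo.add_self_eq_zero, zero_mul, mul_zero]
        by_cases hbc : b = c
        · subst hbc
          rw [if_neg (fun h => h.1.2.2.2.1 rfl)]
          simp only [U, CharTwo.add_self_eq_zero, zero_mul, mul_zero]
        by_cases hbd : b = d
        · subst hbd
          rw [if_neg (fun h => h.1.2.2.2.2.1 rfl)]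
          simp only [U, CharTwo.add_self_eq_zero, zero_mul, mul_zero]
        rw [if_pos ⟨⟨hab, hac, had, hbc, hbd, hcd⟩, hx⟩]
      · rw [if_neg hx, if_neg (fun h => hx h.2)]
    rw [← h2, hE]
  have := iso_bound2 lam hlam (EV1 (e := e) t W) (EV2 (e := e) t W) hinj hinj' hiso
  rw [Module.finrank_fintype_fun_eq_card, Fintype.card_coe, Fintype.card_prod, Fintype.card_prod,
    Fintype.card_fin, card_Ix] at this
  calc 2 * ((e + 2) ^ 2 * (e + 1) ^ 2) = 2 * ((e + 1 + 1) ^ 2 * ((e + 1) * (e + 1))) := by ring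
    _ ≤ _ := this

end

/-- **the F2 form of Harary-Hill, `n` odd** -/
theorem knF2_odd (r : ℕ) (hr : 2 ≤ r) : G172.KnF2 (2 * r + 1) := by
  classical
  obtain ⟨e, rfl⟩ : ∃ e, r = e + 2 := ⟨r - 2, by omega⟩
  intro W hW
  obtain ⟨F, _, _, _, t, D, hD⟩ := Gen259.exists_field (2 * (e + 2) + 1)
  let W' : Fin (2 * (e + 2) + 1) → Fin (2 * (e + 2) + 1) → Fin (2 * (e + 2) + 1) → ZMod 2 :=
    fun v a b => if a = b then 0 else W v a b
  have h := coreK (e := e) (by omega) D hD (W := W')
    (fun v a b => by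
      by_cases hab : a = b
      · simp [W', hab]
      · simp only [W']; rw [if_neg hab, if_neg (Ne.symm hab), hW])
    (fun v a => by simp [W'])
  have hS : G172.SK W' = G172.SK W := by
    unfold G172.SK
    refine Finset.filter_congr fun q _ => ?_
    refine and_congr_right fun hq => ?_
    obtain ⟨h1, h2, h3, h4, h5, h6⟩ := hq
    have : G172.xK W' q.1 q.2.1 q.2.2.1 q.2.2.2 = G172.xK W q.1 q.2.1 q.2.2.1 q.2.2.2 := by
      unfold G172.xK
      simp only [W', if_neg h1, if_neg h6]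
    rw [this]
  rw [hS] at h
  have h1 : (2 * (e + 2) + 1) / 2 = e + 2 := by omega
  have h2 : (2 * (e + 2) + 1 - 1) / 2 = e + 2 := by omega
  have h3 : (2 * (e + 2) + 1 - 2) / 2 = e + 1 := by omega
  have h4 : (2 * (e + 2) + 1 - 3) / 2 = e + 1 := by omega
  rw [h1, h2, h3, h4]
  calc 2 * ((e + 2) * (e + 2) * (e + 1) * (e + 1)) = 2 * ((e + 2) ^ 2 * (e + 1) ^ 2) := by ring
    _ ≤ _ := h

open Crest.CombinatoricsR.TopDrawing in
/-- **Harary-Hill** -/
theorem s0048 : ∀ (n : ℕ) (D : Drawing (⊤ : SimpleGraph (Fin n))), IsOrdinary D →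
      (n / 2) * ((n - 1) / 2) * ((n - 2) / 2) * ((n - 3) / 2) ≤ 4 * crossingCount D :=
  G172.s0048_of knF2_odd

end Crest.Agent.R36.KN230
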