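import Crest.Agent.R36.Bip127
import Crest.Agent.R36.Glue172
import Crest.Agent.R36.Gen259
import Crest.Agent.R36.TL100

/-! R36 (helper127): **the algebra of `K_n`** (n odd), from the tournament form (T), in helper21's
non-symmetric form: boxes `(r-1, r-2; r-1, r-2)`. -/

set_option autoImplicit false
open Finset Polynomial

namespace Crest.Agent.R36.Kn127

open Crest.Agent.R36.Bip127 (wt IsP wt_ne_zero phi phi_mul ev Box evP isP_evP_x isP_evP_y isP_evP_z
  isP_evP_w eval_eval_X toP toP_box toP_inj toP_coeff)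
open Crest.Agent.R36.G172 (xK SK mem_SK iv)
open Crest.Agent.R036

/-- Two injective maps `E, E' : V → K^Γ` with orthogonal images for a nondegenerate diagonal form:
`2 dim V ≤ |Γ|`. -/
theorem iso_bound' {K V Γ : Type*} [Field K] [AddCommGroup V] [Module K V] [FiniteDimensional K V]
    [Fintype Γ] (E E' : V →ₗ[K] (Γ → K)) (hE : Function.Injective E)
    (hE' : Function.Injective E') (lam : Γ → K)
    (hl : ∀ γ, lam γ ≠ 0) (hiso : ∀ P Q, ∑ γ, lam γ * (E P γ * E' Q γ) = 0) :
    2 * Module.finrank K V ≤ Fintype.card Γ := by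
  classical
  let B : (Γ → K) →ₗ[K] Module.Dual K V :=
    { toFun := fun f =>
        { toFun := fun P => ∑ γ, lam γ * (f γ * E' P γ)
          map_add' := fun P Q => by
            rw [← Finset.sum_add_distrib]
            refine Finset.sum_congr rfl fun γ _ => ?_
            rw [map_add, Pi.add_apply]; ring
          map_smul' := fun c P => by
            rw [RingHom.id_apply, smul_eq_mul, Finset.mul_sum]
            refine Finset.sum_congr rfl fun γ _ => ?_
            rw [map_smul, Pi.smul_apply, smul_eq_mul]; ring }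
      map_add' := fun f g => by
        ext P
        simp only [LinearMap.coe_mk, AddHom.coe_mk, LinearMap.add_apply, Pi.add_apply]
        rw [← Finset.sum_add_distrib]
        refine Finset.sum_congr rfl fun γ _ => ?_
        ring
      map_smul' := fun c f => by
        ext P
        simp only [LinearMap.coe_mk, AddHom.coe_mk, LinearMap.smul_apply, Pi.smul_apply,
          RingHom.id_apply, smul_eq_mul]
        rw [Finset.mul_sum]
        refine Finset.sum_congr rfl fun γ _ => ?_
        ring }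
  have hB : ∀ f P, B f P = ∑ γ, lam γ * (f γ * E' P γ) := fun f P => rfl
  have hsurj : Function.Surjective B := by
    intro φ
    obtain ⟨ψ, hψ⟩ := LinearMap.dualMap_surjective_of_injective hE' φ
    refine ⟨fun γ => (lam γ)⁻¹ * ψ (fun j => if γ = j then 1 else 0), ?_⟩
    ext P
    rw [hB, ← hψ, LinearMap.dualMap_apply, LinearMap.pi_apply_eq_sum_univ ψ (E' P)]
    refine Finset.sum_congr rfl fun γ _ => ?_
    rw [smul_eq_mul]
    field_simp [hl γ]
  have hker : LinearMap.range E ≤ LinearMap.ker B := by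
    rintro _ ⟨P, rfl⟩
    rw [LinearMap.mem_ker]
    ext Q
    rw [hB, hiso, LinearMap.zero_apply]
  have h1 := LinearMap.finrank_range_add_finrank_ker B
  rw [LinearMap.range_eq_top.2 hsurj, finrank_top, Subspace.dual_finrank_eq,
    Module.finrank_fintype_fun_eq_card] at h1
  have h2 : Module.finrank K V ≤ Module.finrank K (LinearMap.ker B) := by
    have := Submodule.finrank_mono hker
    rwa [LinearMap.finrank_range_of_inj hE] at this
  omega

/-! ### the state -/

section State

variable {n : ℕ}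

theorem z2 (x : ZMod 2) : x + x = 0 := by revert x; decide

theorem iv_add {a b : Fin n} (h : a ≠ b) : iv (a < b) + iv (b < a) = 1 := by
  rcases lt_or_gt_of_ne h with h | h
  · simp [iv, h, not_lt.2 h.le]
  · simp [iv, h, not_lt.2 h.le]

theorem iv_self (a : Fin n) : iv (a < a) = 0 := by simp [iv]

theorem xK_left {W : Fin n → Fin n → Fin n → ZMod 2} (h0 : ∀ v a, W v a a = 0) (a c d : Fin n) :
    xK W a a c d = 0 := by
  unfold xK
  rw [h0, h0]
  generalize iv (a < c) = x; generalize iv (a < d) = y; generalize W a c d = z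
  revert x y z; decide

theorem xK_right {W : Fin n → Fin n → Fin n → ZMod 2} (h0 : ∀ v a, W v a a = 0) (a b c : Fin n) :
    xK W a b c c = 0 := by
  unfold xK
  rw [h0, h0]
  generalize iv (a < c) = x; generalize iv (b < c) = y; generalize W c a b = z
  revert x y z; decide

theorem xK_tour {W : Fin n → Fin n → Fin n → ZMod 2} (v b d : Fin n) (hb : b ≠ v) (hd : d ≠ v)
    (hbd : b ≠ d) : xK W v b v d + xK W v d v b = 1 := by
  have h1 := iv_add hb
  have h2 := iv_add hd
  have h3 := iv_add hbd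
  unfold xK
  rw [iv_self]
  revert h1 h2 h3
  generalize iv (b < v) = a1; generalize iv (v < b) = a2; generalize iv (d < v) = a3
  generalize iv (v < d) = a4; generalize iv (b < d) = a5; generalize iv (d < b) = a6
  generalize W v v d = y1; generalize W b v d = y2; generalize W d v b = y3
  generalize W v v b = y4
  intro h1 h2 h3
  have : (0 + a4 + a1 + a5 + y1 + y2 + y3 + y4) + (0 + a2 + a3 + a6 + y4 + y3 + y2 + y1) =
      (a1 + a2) + (a3 + a4) + (a5 + a6) + (y1 + y1) + (y2 + y2) + (y3 + y3) + (y4 + y4) := by ring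
  rw [this, h1, h2, h3, z2 y1, z2 y2, z2 y3, z2 y4]
  decide

theorem xK_swap {W : Fin n → Fin n → Fin n → ZMod 2} (hW : ∀ v a b, W v a b = W v b a)
    (a b c d : Fin n) : xK W b a d c = xK W a b c d := by
  unfold xK
  rw [hW b d c, hW a d c, hW c b a, hW d b a]
  ring

end State

section Core

variable {K : Type*} [Field K] [CharP K 2]

omit [CharP K 2] in
theorem F1n {n : ℕ} (g1 g2 g3 g4 : Fin n → Fin n → Fin n → K)
    (G : Fin n → Fin n → Fin n → Fin n → K)
    (ha : ∀ b c d, ∑ a, G a b c d = 0) (hb : ∀ a c d, ∑ b, G a b c d = 0)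
    (hc : ∀ a b d, ∑ c, G a b c d = 0) (hd : ∀ a b c, ∑ d, G a b c d = 0) :
    ∑ a, ∑ b, ∑ c, ∑ d, (g1 b c d + g2 a c d + g3 a b d + g4 a b c) * G a b c d = 0 := by
  have h1 : ∑ a, ∑ b, ∑ c, ∑ d, g1 b c d * G a b c d = 0 := by
    rw [Finset.sum_comm]
    refine Finset.sum_eq_zero fun b _ => ?_
    rw [Finset.sum_comm]
    refine Finset.sum_eq_zero fun c _ => ?_
    rw [Finset.sum_comm]
    refine Finset.sum_eq_zero fun d _ => ?_
    rw [← Finset.mul_sum, ha, mul_zero]
  have h2 : ∑ a, ∑ b, ∑ c, ∑ d, g2 a c d * G a b c d = 0 := by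
    refine Finset.sum_eq_zero fun a _ => ?_
    rw [Finset.sum_comm]
    refine Finset.sum_eq_zero fun c _ => ?_
    rw [Finset.sum_comm]
    refine Finset.sum_eq_zero fun d _ => ?_
    rw [← Finset.mul_sum, hb, mul_zero]
  have h3 : ∑ a, ∑ b, ∑ c, ∑ d, g3 a b d * G a b c d = 0 := by
    refine Finset.sum_eq_zero fun a _ => Finset.sum_eq_zero fun b _ => ?_
    rw [Finset.sum_comm]
    refine Finset.sum_eq_zero fun d _ => ?_
    rw [← Finset.mul_sum, hc, mul_zero]
  have h4 : ∑ a, ∑ b, ∑ c, ∑ d, g4 a b c * G a b c d = 0 := by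
    refine Finset.sum_eq_zero fun a _ => Finset.sum_eq_zero fun b _ =>
      Finset.sum_eq_zero fun c _ => ?_
    rw [← Finset.mul_sum, hd, mul_zero]
  simp only [add_mul, Finset.sum_add_distrib]
  rw [h1, h2, h3, h4]
  simp

/-- The universal identity for `K_n`. -/
theorem total_zero_n {n N : ℕ} (hN : N + 2 ≤ n) {t : Fin n → K}
    (ht : Function.Injective t) (W : Fin n → Fin n → Fin n → ZMod 2)
    (U : K → K → K → K → K) (h1 : ∀ b c d, IsP N fun a => U a b c d)
    (h2 : ∀ a c d, IsP N fun b => U a b c d) (h3 : ∀ a b d, IsP N fun c => U a b c d)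
    (h4 : ∀ a b c, IsP N fun d => U a b c d) :
    ∑ a, ∑ b, ∑ c, ∑ d, phi K (xK W a b c d) *
      (wt t a * wt t b * wt t c * wt t d * U (t a) (t b) (t c) (t d)) = 0 := by
  have hN' : N + 2 ≤ Fintype.card (Fin n) := by rwa [Fintype.card_fin]
  have key := F1n (fun b c d => phi K (iv (b < c) + iv (b < d) + W b c d))
    (fun a c d => phi K (iv (a < c) + iv (a < d) + W a c d)) (fun a b d => phi K (W d a b))
    (fun a b c => phi K (W c a b))
    (fun a b c d => wt t a * wt t b * wt t c * wt t d * U (t a) (t b) (t c) (t d)) ?_ ?_ ?_ ?_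
  · refine Eq.trans ?_ key
    refine Finset.sum_congr rfl fun a _ => Finset.sum_congr rfl fun b _ =>
      Finset.sum_congr rfl fun c _ => Finset.sum_congr rfl fun d _ => ?_
    rw [← map_add, ← map_add, ← map_add]
    congr 2
    unfold xK
    ring
  · intro b c d
    have h := IsP.lagrange ht hN' (h1 (t b) (t c) (t d))
    refine Eq.trans ?_ (mul_zero (wt t b * wt t c * wt t d))
    rw [← h, Finset.mul_sum]
    refine Finset.sum_congr rfl fun i _ => ?_
    ring
  · intro a c d
    have h := IsP.lagrange ht hN' (h2 (t a) (t c) (t d))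
    refine Eq.trans ?_ (mul_zero (wt t a * wt t c * wt t d))
    rw [← h, Finset.mul_sum]
    refine Finset.sum_congr rfl fun i _ => ?_
    ring
  · intro a b d
    have h := IsP.lagrange ht hN' (h3 (t a) (t b) (t d))
    refine Eq.trans ?_ (mul_zero (wt t a * wt t b * wt t d))
    rw [← h, Finset.mul_sum]
    refine Finset.sum_congr rfl fun i _ => ?_
    ring
  · intro a b c
    have h := IsP.lagrange ht hN' (h4 (t a) (t b) (t c))
    refine Eq.trans ?_ (mul_zero (wt t a * wt t b * wt t c))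
    rw [← h, Finset.mul_sum]
    refine Finset.sum_congr rfl fun i _ => ?_
    ring

/-- Lagrange interpolation on a set of nodes. -/
theorem interp {ι : Type*} [DecidableEq ι] {t : ι → K} (ht : Function.Injective t) {N : ℕ}
    {A : Finset ι} (hA : A.card = N + 1) {f : K → K} (hf : IsP N f) :
    ∃ c : ι → K, ∀ z, f z = ∑ p ∈ A, c p * ∏ q ∈ A.erase p, (z + t q) := by
  obtain ⟨P, h1, h2⟩ := hf
  have h3 := Lagrange.eq_interpolate (s := A) (v := t) ht.injOn (f := P) (by
    rw [hA]
    refine lt_of_le_of_lt degree_le_natDegree ?_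
    exact_mod_cast (by omega : P.natDegree < N + 1))
  refine ⟨fun p => P.eval (t p) * ∏ q ∈ A.erase p, (t p - t q)⁻¹, fun z => ?_⟩
  have h4 : P.eval z = eval z (∑ i ∈ A, C (P.eval (t i)) * Lagrange.basis A t i) := by
    rw [← Lagrange.interpolate_apply, ← h3]
  rw [h2, h4, eval_finsetSum]
  refine Finset.sum_congr rfl fun p _ => ?_
  rw [eval_mul, eval_C, Lagrange.basis, eval_prod, mul_assoc, ← Finset.prod_mul_distrib]
  congr 1
  refine Finset.prod_congr rfl fun q _ => ?_
  rw [Lagrange.basisDivisor, eval_mul, eval_C, eval_sub, eval_X, eval_C, CharTwo.sub_eq_add z]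

omit [CharP K 2] in
theorem sum_sub {n : ℕ} (p : Fin n → Prop) [DecidablePred p] (F : Fin n → K)
    (h0 : ∀ b, ¬ p b → F b = 0) : ∑ b, F b = ∑ b : {x // p x}, F b.val := by
  rw [← Finset.sum_subtype (univ.filter p) (by simp) F, Finset.sum_filter]
  refine Finset.sum_congr rfl fun b _ => ?_
  split_ifs with h
  · rfl
  · exact h0 b h

/-- The functional at the vertex `v`. -/
noncomputable def Lf {n e : ℕ} (t : Fin n → K) (W : Fin n → Fin n → Fin n → ZMod 2)
    (P : Fin (e + 1) → Fin (e + 1) → K[X][X]) (v : Fin n) (F : K → K → K) : K :=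
  ∑ b, ∑ d, phi K (xK W v b v d) * (wt t b * wt t d * ((t b + t v) * (t d + t v)) *
    evP P (t v) (t v) (t b) (t d) * F (t b) (t d))

theorem Lf_add {n e : ℕ} (t : Fin n → K) (W : Fin n → Fin n → Fin n → ZMod 2)
    (P : Fin (e + 1) → Fin (e + 1) → K[X][X]) (v : Fin n) (F G : K → K → K) :
    Lf t W P v (fun z w => F z w + G z w) = Lf t W P v F + Lf t W P v G := by
  unfold Lf
  rw [← Finset.sum_add_distrib]
  refine Finset.sum_congr rfl fun b _ => ?_
  rw [← Finset.sum_add_distrib]
  refine Finset.sum_congr rfl fun d _ => ?_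
  ring

theorem Lf_mul {n e : ℕ} (t : Fin n → K) (W : Fin n → Fin n → Fin n → ZMod 2)
    (P : Fin (e + 1) → Fin (e + 1) → K[X][X]) (v : Fin n) (c : K) (F : K → K → K) :
    Lf t W P v (fun z w => c * F z w) = c * Lf t W P v F := by
  unfold Lf
  rw [Finset.mul_sum]
  refine Finset.sum_congr rfl fun b _ => ?_
  rw [Finset.mul_sum]
  refine Finset.sum_congr rfl fun d _ => ?_
  ring

theorem Lf_sum {n e : ℕ} (t : Fin n → K) (W : Fin n → Fin n → Fin n → ZMod 2)
    (P : Fin (e + 1) → Fin (e + 1) → K[X][X]) (v : Fin n) {α : Type*} (s : Finset α)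
    (F : α → K → K → K) :
    Lf t W P v (fun z w => ∑ x ∈ s, F x z w) = ∑ x ∈ s, Lf t W P v (F x) := by
  classical
  induction s using Finset.induction_on with
  | empty => simp [Lf]
  | insert x s hx ih =>
    simp only [Finset.sum_insert hx]
    rw [Lf_add, ih]

/-- Step 1: localisation at the vertex `v`. -/
theorem step1 {n e s : ℕ} (hn : n = 2 * e + 5) (hs : s ≤ e + 1 + 1) {t : Fin n → K}
    (ht : Function.Injective t) {W : Fin n → Fin n → Fin n → ZMod 2} (hW0 : ∀ v a, W v a a = 0)
    {P : Fin (e + 1) → Fin (e + 1) → K[X][X]} (hP : ∀ a b, Box s (P a b))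
    (hvan : ∀ a b c d, RedK.Dist4 a b c d → xK W a b c d = 1 →
      evP P (t a) (t c) (t b) (t d) = 0) (v : Fin n) (A B : Finset (Fin n))
    (hA : A.card = e + 2) (hB : B.card = e + 2) (hAB : ∀ u, u ≠ v → u ∈ A ∨ u ∈ B)
    (hvA : v ∉ A) (hvB : v ∉ B) :
    Lf t W P v (fun z w => (∏ q ∈ A, (z + t q)) * ∏ q ∈ B, (w + t q)) = 0 := by
  have hA1 : IsP (e + 2) (fun x : K => ∏ q ∈ A, (x + t q)) := by
    have := IsP.prod A t
    rwa [hA] at this
  have hB1 : IsP (e + 2) (fun x : K => ∏ q ∈ B, (x + t q)) := by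
    have := IsP.prod B t
    rwa [hB] at this
  have hzero : ∀ u, u ≠ v → (∏ q ∈ A, (t u + t q)) * ∏ q ∈ B, (t u + t q) = 0 := by
    intro u hu
    rcases hAB u hu with h | h
    · rw [Finset.prod_eq_zero h (CharTwo.add_self_eq_zero (t u)), zero_mul]
    · rw [Finset.prod_eq_zero h (CharTwo.add_self_eq_zero (t u)), mul_zero]
  have h := total_zero_n (N := 2 * e + 3) (by omega) ht W
    (fun x0 x1 x2 x3 => evP P x0 x2 x1 x3 * ((∏ q ∈ A, (x0 + t q)) * ∏ q ∈ A, (x1 + t q)) *
      ((∏ q ∈ B, (x2 + t q)) * ∏ q ∈ B, (x3 + t q)) * ((x1 + t v) * (x3 + t v)))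
    (fun x1 x2 x3 => by
      refine IsP.mono ?_ (by omega : (e + 1) + (e + 2) ≤ 2 * e + 3)
      exact (((isP_evP_x hs hP x2 x1 x3).mul (hA1.mul_const _)).mul_const _).mul_const _)
    (fun x0 x2 x3 => by
      refine IsP.mono ?_ (by omega : e + (e + 2) + 1 ≤ 2 * e + 3)
      exact (((isP_evP_z P x0 x2 x3).mul (hA1.const_mul _)).mul_const _).mul
        ((IsP.add_const (t v)).mul_const _))
    (fun x0 x1 x3 => by
      refine IsP.mono ?_ (by omega : (e + 1) + (e + 2) ≤ 2 * e + 3)
      exact (((isP_evP_y hs hP x0 x1 x3).mul_const _).mul (hB1.mul_const _)).mul_const _)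
    (fun x0 x1 x2 => by
      refine IsP.mono ?_ (by omega : e + (e + 2) + 1 ≤ 2 * e + 3)
      exact (((isP_evP_w P x0 x2 x1).mul_const _).mul (hB1.const_mul _)).mul
        ((IsP.add_const (t v)).const_mul _))
  -- only `a = c = v` survives
  have hterm : ∀ a b c d, ¬ (a = v ∧ c = v) → phi K (xK W a b c d) *
      (wt t a * wt t b * wt t c * wt t d * (evP P (t a) (t c) (t b) (t d) *
        ((∏ q ∈ A, (t a + t q)) * ∏ q ∈ A, (t b + t q)) *
      ((∏ q ∈ B, (t c + t q)) * ∏ q ∈ B, (t d + t q)) * ((t b + t v) * (t d + t v)))) = 0 := by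
    intro a b c d hacv
    by_cases hab : a = b
    · subst hab; rw [xK_left hW0]; simp
    by_cases hcd : c = d
    · subst hcd; rw [xK_right hW0]; simp
    by_cases hac : a = c
    · subst hac
      have hav : a ≠ v := fun h => hacv ⟨h, h⟩
      have h0 := hzero a hav
      rw [show ∀ x y z w u1 u2 u3 u4 e1 e2 f : K, x * (y * z * w * u1 * (u2 * (e1 * u3) * (e2 * u4) * f)) =
        (e1 * e2) * (x * y * z * w * u1 * u2 * u3 * u4 * f) from fun _ _ _ _ _ _ _ _ _ _ _ => by ring,
        h0, zero_mul]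
    by_cases had : a = d
    · subst had
      by_cases hav : a = v
      · subst hav
        rw [CharTwo.add_self_eq_zero (t a)]
        ring
      · have h0 := hzero a hav
        rw [show ∀ x y z w u1 u2 u3 u4 e1 e2 f : K, x * (y * z * w * u1 * (u2 * (e1 * u3) * (u4 * e2) * f)) =
          (e1 * e2) * (x * y * z * w * u1 * u2 * u3 * u4 * f) from fun _ _ _ _ _ _ _ _ _ _ _ => by ring,
          h0, zero_mul]
    by_cases hbc : b = c
    · subst hbc
      by_cases hbv : b = v
      · subst hbv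
        rw [CharTwo.add_self_eq_zero (t b)]
        ring
      · have h0 := hzero b hbv
        rw [show ∀ x y z w u1 u2 u3 u4 e1 e2 f : K, x * (y * z * w * u1 * (u2 * (u3 * e1) * (e2 * u4) * f)) =
          (e1 * e2) * (x * y * z * w * u1 * u2 * u3 * u4 * f) from fun _ _ _ _ _ _ _ _ _ _ _ => by ring,
          h0, zero_mul]
    by_cases hbd : b = d
    · subst hbd
      by_cases hbv : b = v
      · subst hbv
        rw [CharTwo.add_self_eq_zero (t b)]
        ring
      · have h0 := hzero b hbv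
        rw [show ∀ x y z w u1 u2 u3 u4 e1 e2 f : K, x * (y * z * w * u1 * (u2 * (u3 * e1) * (u4 * e2) * f)) =
          (e1 * e2) * (x * y * z * w * u1 * u2 * u3 * u4 * f) from fun _ _ _ _ _ _ _ _ _ _ _ => by ring,
          h0, zero_mul]
    rw [phi_mul]
    split_ifs with hx
    · rw [hvan a b c d ⟨hab, hac, had, hbc, hbd, hcd⟩ hx]
      ring
    · rfl
  have hne : ∀ q, q ≠ v → t v + t q ≠ 0 := by
    intro q hq h0
    rw [← CharTwo.sub_eq_add, sub_eq_zero] at h0
    exact hq (ht h0).symm
  have hc : wt t v * wt t v * ((∏ q ∈ A, (t v + t q)) * (∏ q ∈ B, (t v + t q))) ≠ 0 := by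
    refine mul_ne_zero (mul_ne_zero (wt_ne_zero ht _) (wt_ne_zero ht _)) (mul_ne_zero ?_ ?_)
    · exact Finset.prod_ne_zero_iff.2 fun q hq => hne q (fun h => hvA (h ▸ hq))
    · exact Finset.prod_ne_zero_iff.2 fun q hq => hne q (fun h => hvB (h ▸ hq))
  refine mul_left_cancel₀ hc (Eq.trans ?_ (h.trans (mul_zero _).symm))
  refine Eq.symm ((Finset.sum_eq_single v ?_ ?_).trans ?_)
  · intro a _ ha
    exact Finset.sum_eq_zero fun b _ => Finset.sum_eq_zero fun c _ =>
      Finset.sum_eq_zero fun d _ => hterm a b c d (fun h => ha h.1)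
  · intro h; exact absurd (mem_univ _) h
  · unfold Lf
    rw [Finset.mul_sum]
    refine Finset.sum_congr rfl fun b _ => ?_
    refine (Finset.sum_eq_single v ?_ ?_).trans ?_
    · intro c _ hc
      exact Finset.sum_eq_zero fun d _ => hterm v b c d (fun h => hc h.2)
    · intro h; exact absurd (mem_univ _) h
    · rw [Finset.mul_sum]
      refine Finset.sum_congr rfl fun d _ => ?_
      ring

/-- Steps 2, 3: exchange and spanning. -/
theorem step2 {n e s : ℕ} (hn : n = 2 * e + 5) (hs : s ≤ e + 1 + 1) {t : Fin n → K}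
    (ht : Function.Injective t) {W : Fin n → Fin n → Fin n → ZMod 2} (hW0 : ∀ v a, W v a a = 0)
    {P : Fin (e + 1) → Fin (e + 1) → K[X][X]} (hP : ∀ a b, Box s (P a b))
    (hvan : ∀ a b c d, RedK.Dist4 a b c d → xK W a b c d = 1 →
      evP P (t a) (t c) (t b) (t d) = 0) (v : Fin n) {f g : K → K} (hf : IsP (e + 1) f)
    (hg : IsP (e + 1) g) : Lf t W P v (fun z w => (z + w) * (f z * g w)) = 0 := by
  have hcard : (univ.erase v).card = (e + 2) + (e + 2) := by
    rw [Finset.card_erase_of_mem (mem_univ _), Finset.card_univ, Fintype.card_fin]; omega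
  obtain ⟨A, hA, hAc⟩ := Finset.exists_subset_card_eq (s := univ.erase v) (n := e + 2) (by omega)
  have hBc : ((univ.erase v) \ A).card = e + 2 := by
    rw [Finset.card_sdiff_of_subset hA]; omega
  set B := (univ.erase v) \ A with hB
  have hvA : v ∉ A := fun h => (Finset.mem_erase.1 (hA h)).1 rfl
  have hvB : v ∉ B := fun h => (Finset.mem_erase.1 (Finset.mem_sdiff.1 h).1).1 rfl
  have hAB : ∀ u, u ≠ v → u ∈ A ∨ u ∈ B := fun u hu => by
    by_cases h : u ∈ A
    · exact Or.inl h
    · exact Or.inr (Finset.mem_sdiff.2 ⟨Finset.mem_erase.2 ⟨hu, mem_univ _⟩, h⟩)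
  have key : ∀ p ∈ A, ∀ q ∈ B, Lf t W P v (fun z w => (z + w) *
      ((∏ x ∈ A.erase p, (z + t x)) * ∏ x ∈ B.erase q, (w + t x))) = 0 := by
    intro p hp q hq
    have hqA : q ∉ A := (Finset.mem_sdiff.1 hq).2
    have hpB : p ∉ B := fun h => (Finset.mem_sdiff.1 h).2 hp
    have hpq : p ≠ q := fun h => hqA (h ▸ hp)
    have h1 := step1 hn hs ht hW0 hP hvan v A B hAc hBc hAB hvA hvB
    have h2 := step1 hn hs ht hW0 hP hvan v (insert q (A.erase p)) (insert p (B.erase q))
      (by rw [Finset.card_insert_of_notMem (fun h => hqA (Finset.mem_of_mem_erase h)),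
            Finset.card_erase_of_mem hp, hAc]; omega)
      (by rw [Finset.card_insert_of_notMem (fun h => hpB (Finset.mem_of_mem_erase h)),
            Finset.card_erase_of_mem hq, hBc]; omega)
      (fun u hu => by
        by_cases hup : u = p
        · exact Or.inr (by rw [hup]; exact Finset.mem_insert_self _ _)
        by_cases huq : u = q
        · exact Or.inl (by rw [huq]; exact Finset.mem_insert_self _ _)
        rcases hAB u hu with h | h
        · exact Or.inl (Finset.mem_insert_of_mem (Finset.mem_erase.2 ⟨hup, h⟩))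
        · exact Or.inr (Finset.mem_insert_of_mem (Finset.mem_erase.2 ⟨huq, h⟩)))
      (fun h => by
        rcases Finset.mem_insert.1 h with h | h
        · exact hvB (h ▸ hq)
        · exact hvA (Finset.mem_of_mem_erase h))
      (fun h => by
        rcases Finset.mem_insert.1 h with h | h
        · exact hvA (h ▸ hp)
        · exact hvB (Finset.mem_of_mem_erase h))
    have h3 : (fun z w => (t p + t q) * ((z + w) *
        ((∏ x ∈ A.erase p, (z + t x)) * ∏ x ∈ B.erase q, (w + t x)))) = fun z w =>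
        (∏ x ∈ A, (z + t x)) * (∏ x ∈ B, (w + t x)) +
        (∏ x ∈ insert q (A.erase p), (z + t x)) * ∏ x ∈ insert p (B.erase q), (w + t x) := by
      funext z w
      rw [Finset.prod_insert (fun h => hqA (Finset.mem_of_mem_erase h)),
        Finset.prod_insert (fun h => hpB (Finset.mem_of_mem_erase h)),
        ← Finset.mul_prod_erase A _ hp, ← Finset.mul_prod_erase B _ hq]
      linear_combination (-(z * w + t p * t q) * (∏ x ∈ A.erase p, (z + t x)) *
        ∏ x ∈ B.erase q, (w + t x)) * (CharTwo.two_eq_zero : (2 : K) = 0)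
    have h4 := Lf_add t W P v (fun z w => (∏ x ∈ A, (z + t x)) * ∏ x ∈ B, (w + t x))
      (fun z w => (∏ x ∈ insert q (A.erase p), (z + t x)) * ∏ x ∈ insert p (B.erase q), (w + t x))
    rw [h1, h2, ← h3, Lf_mul, add_zero] at h4
    refine (mul_eq_zero.1 h4).resolve_left fun h0 => ?_
    rw [← CharTwo.sub_eq_add, sub_eq_zero] at h0
    exact hpq (ht h0)
  obtain ⟨cf, hcf⟩ := interp ht hAc hf
  obtain ⟨cg, hcg⟩ := interp ht hBc hg
  have h5 : (fun z w => (z + w) * (f z * g w)) = fun z w => ∑ p ∈ A, ∑ q ∈ B,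
      (cf p * cg q) * ((z + w) * ((∏ x ∈ A.erase p, (z + t x)) * ∏ x ∈ B.erase q, (w + t x))) := by
    funext z w
    rw [hcf, hcg, Finset.sum_mul_sum, Finset.mul_sum]
    refine Finset.sum_congr rfl fun p _ => ?_
    rw [Finset.mul_sum]
    refine Finset.sum_congr rfl fun q _ => ?_
    ring
  rw [h5, Lf_sum]
  refine Finset.sum_eq_zero fun p hp => ?_
  rw [Lf_sum]
  refine Finset.sum_eq_zero fun q hq => ?_
  rw [Lf_mul, key p hp q hq, mul_zero]

omit [CharP K 2] in
theorem om_sub {n : ℕ} (t : Fin n → K) (v q : Fin n) (hvq : q ≠ v)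
    (hne : ∀ a b : Fin n, a ≠ b → t a + t b ≠ 0) (j : {x : Fin n // x ≠ v ∧ x ≠ q}) :
    TL100.om (fun x : {x : Fin n // x ≠ v ∧ x ≠ q} => t x.val) j =
      wt t j.val * ((t j.val + t v) * (t j.val + t q)) := by
  have h1 : ∏ k ∈ univ.erase j.val, (t j.val + t k) = (t j.val + t v) * ((t j.val + t q) *
      ∏ k ∈ univ.erase j, (t j.val + t k.val)) := by
    rw [← Finset.mul_prod_erase (univ.erase j.val) _
      (Finset.mem_erase.2 ⟨j.2.1.symm, mem_univ _⟩ : v ∈ _),
      ← Finset.mul_prod_erase ((univ.erase j.val).erase v) _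
      (Finset.mem_erase.2 ⟨hvq, Finset.mem_erase.2 ⟨j.2.2.symm, mem_univ _⟩⟩ : q ∈ _)]
    congr 2
    refine Eq.trans ?_ (Finset.prod_map (univ.erase j) (Function.Embedding.subtype _)
      (fun k => (t j.val + t k)))
    refine Finset.prod_congr ?_ fun _ _ => rfl
    ext k
    simp only [Finset.mem_erase, Finset.mem_map, Finset.mem_univ, and_true,
      Function.Embedding.subtype_apply]
    constructor
    · rintro ⟨h1, h2, h3⟩
      exact ⟨⟨k, h2, h1⟩, fun h => h3 (congrArg Subtype.val h), rfl⟩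
    · rintro ⟨x, h1, rfl⟩
      exact ⟨x.2.2, x.2.1, fun h => h1 (Subtype.ext h)⟩
  unfold wt TL100.om
  rw [h1]
  have h2 := hne j.val v j.2.1
  have h3 := hne j.val q j.2.2
  have h4 : ∏ k ∈ univ.erase j, (t j.val + t k.val) ≠ 0 := by
    refine Finset.prod_ne_zero_iff.2 fun k hk => hne _ _ fun h => ?_
    exact (Finset.mem_erase.1 hk).1 (Subtype.ext h.symm)
  field_simp

/-- Step 4: `P(t_v, z; t_v, w) = 0`. -/
theorem step4 {n e s : ℕ} (hn : n = 2 * e + 5) (hs : s ≤ e + 1 + 1) {t : Fin n → K}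
    (D : Fin n → Derivation ℤ K K) (hD : ∀ i j, D i (t j) = if i = j then 1 else 0)
    {W : Fin n → Fin n → Fin n → ZMod 2} (hW0 : ∀ v a, W v a a = 0)
    {P : Fin (e + 1) → Fin (e + 1) → K[X][X]} (hP : ∀ a b, Box s (P a b))
    (hvan : ∀ a b c d, RedK.Dist4 a b c d → xK W a b c d = 1 →
      evP P (t a) (t c) (t b) (t d) = 0) (v : Fin n) (a b : Fin (e + 1)) :
    (P a b).evalEval (t v) (t v) = 0 := by
  have ht : Function.Injective t := TL100.injective_of_der t D hD
  have hne : ∀ a b : Fin n, a ≠ b → t a + t b ≠ 0 := by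
    intro a b hab h0
    rw [← CharTwo.sub_eq_add, sub_eq_zero] at h0
    exact hab (ht h0)
  obtain ⟨q, hq⟩ : ∃ q : Fin n, q ≠ v := by
    have : 1 < Fintype.card (Fin n) := by rw [Fintype.card_fin]; omega
    obtain ⟨q, hq⟩ := Fintype.exists_ne_of_one_lt_card this v
    exact ⟨q, hq⟩
  set c : ℕ → ℕ → K := fun a b => if hab : a < e + 1 ∧ b < e + 1 then
    (P ⟨a, hab.1⟩ ⟨b, hab.2⟩).evalEval (t v) (t v) else 0 with hc
  have hev : ∀ x y : K, ∑ a ∈ range (e + 1), ∑ b ∈ range (e + 1), c a b * x ^ a * y ^ b =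
      evP P (t v) (t v) x y := by
    intro x y
    show _ = ∑ a : Fin (e + 1), ∑ b : Fin (e + 1),
      (P a b).evalEval (t v) (t v) * x ^ (a : ℕ) * y ^ (b : ℕ)
    rw [Finset.sum_range]
    refine Finset.sum_congr rfl fun a _ => ?_
    rw [Finset.sum_range]
    refine Finset.sum_congr rfl fun b _ => ?_
    simp only [hc]
    rw [dif_pos ⟨a.2, b.2⟩]
  have hcardι : Fintype.card {x : Fin n // x ≠ v ∧ x ≠ q} = 2 * e + 3 := by
    rw [Fintype.card_subtype]
    have : (univ.filter fun x : Fin n => x ≠ v ∧ x ≠ q) = (univ.erase v).erase q := by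
      ext x; simp [and_comm]
    rw [this, Finset.card_erase_of_mem (Finset.mem_erase.2 ⟨hq, mem_univ _⟩),
      Finset.card_erase_of_mem (mem_univ _), Finset.card_univ, Fintype.card_fin]
    omega
  have key := TL100.tournament (fun x : {x : Fin n // x ≠ v ∧ x ≠ q} => t x.val)
    (fun x => D x.val) (fun i j => by rw [hD]; simp only [Subtype.ext_iff]) e hcardι
    (fun x y => xK W v x.val v y.val)
    (fun x y hxy => xK_tour v x.val y.val x.2.1 y.2.1 (fun h => hxy (Subtype.ext h))) c (by
      intro a' ha' b' hb'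
      have h1 := step2 hn hs ht hW0 hP hvan v (f := fun z => (z + t q) * z ^ a')
        (g := fun w => (w + t q) * w ^ b')
        (IsP.mono ((IsP.add_const (t q)).mul (IsP.pow (le_refl a'))) (by omega))
        (IsP.mono ((IsP.add_const (t q)).mul (IsP.pow (le_refl b'))) (by omega))
      unfold Lf at h1
      beta_reduce at h1
      rw [sum_sub (fun x => x ≠ v ∧ x ≠ q)] at h1
      · refine Eq.trans ?_ h1
        refine Finset.sum_congr rfl fun x _ => ?_
        rw [sum_sub (fun x => x ≠ v ∧ x ≠ q)]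
        · refine Finset.sum_congr rfl fun y _ => ?_
          rw [phi_mul, om_sub t v q hq hne, om_sub t v q hq hne, hev]
          by_cases hxy : x = y
          · subst hxy
            rw [if_neg (fun h => h.1 rfl)]
            split_ifs
            · rw [CharTwo.add_self_eq_zero (t x.val)]; ring
            · rfl
          · by_cases hx : xK W v x.val v y.val = 1
            · rw [if_pos ⟨hxy, hx⟩, if_pos hx]; ring
            · rw [if_neg (fun h => hx h.2), if_neg hx]
        · intro y hy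
          have : y = v ∨ y = q := by
            by_contra h; push Not at h; exact hy h
          rcases this with rfl | rfl
          · rw [CharTwo.add_self_eq_zero (t y)]; ring
          · rw [CharTwo.add_self_eq_zero (t y)]; ring
      · intro x hx
        have : x = v ∨ x = q := by
          by_contra h; push Not at h; exact hx h
        refine Finset.sum_eq_zero fun y _ => ?_
        rcases this with rfl | rfl
        · rw [CharTwo.add_self_eq_zero (t x)]; ring
        · rw [CharTwo.add_self_eq_zero (t x)]; ring)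
  have h2 := key a (by omega) b (by omega)
  simp only [hc] at h2
  rw [dif_pos ⟨a.2, b.2⟩] at h2
  exact h2

/-- **(N)** for `K_n`. -/
theorem injective_aux {n e : ℕ} (hn : n = 2 * e + 5) {t : Fin n → K}
    (D : Fin n → Derivation ℤ K K) (hD : ∀ i j, D i (t j) = if i = j then 1 else 0)
    {W : Fin n → Fin n → Fin n → ZMod 2} (hW0 : ∀ v a, W v a a = 0) :
    ∀ s, s ≤ e + 1 + 1 → ∀ P : Fin (e + 1) → Fin (e + 1) → K[X][X], (∀ a b, Box s (P a b)) →
      (∀ a b c d, RedK.Dist4 a b c d → xK W a b c d = 1 →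
        evP P (t a) (t c) (t b) (t d) = 0) → P = 0 := by
  have ht : Function.Injective t := TL100.injective_of_der t D hD
  intro s
  induction s with
  | zero =>
    intro _ P hP _
    ext a b n i
    exact hP a b n i (Or.inl (Nat.zero_le _))
  | succ s ih =>
    intro hs P hP hvan
    have hdiag2 : ∀ a b, (P a b).eval X = 0 := by
      intro a b
      refine eq_zero_of_natDegree_lt_card_of_eval_eq_zero (ι := Fin n) _ ht ?_ ?_
      · intro i
        rw [eval_eval_X]
        exact step4 hn hs D hD hW0 hP hvan i a b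
      · rw [Fintype.card_fin]
        have := (hP a b).diag hs
        omega
    choose Q hQbox hPQ using fun a b => (hP a b).divide (hdiag2 a b)
    have hPQ2 : ∀ x y z w, evP P x y z w = (y - x) * evP Q x y z w := by
      intro x y z w
      unfold evP ev
      rw [Finset.mul_sum]
      refine Finset.sum_congr rfl fun a _ => ?_
      rw [Finset.mul_sum]
      refine Finset.sum_congr rfl fun b _ => ?_
      show (P a b).evalEval x y * z ^ (a : ℕ) * w ^ (b : ℕ) =
        (y - x) * ((Q a b).evalEval x y * z ^ (a : ℕ) * w ^ (b : ℕ))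
      rw [hPQ a b, evalEval_mul, evalEval_sub, evalEval_X, evalEval_C, eval_X]
      ring
    have hQ0 := ih (by omega) Q hQbox (fun a b c d hdist hx => by
      have h1 := hvan a b c d hdist hx
      rw [hPQ2] at h1
      refine (mul_eq_zero.1 h1).resolve_left fun h2 => ?_
      exact hdist.2.1 (ht (sub_eq_zero.1 h2)).symm)
    ext1 a
    ext1 b
    rw [hPQ a b, hQ0]
    simp

/-! ### The count -/

/-- The space of coefficient arrays: `c i k a b` is the coefficient of `X0^i X2^k X1^a X3^b`. -/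
abbrev VV (K : Type*) (e : ℕ) : Type _ :=
  Fin (e + 1 + 1) → Fin (e + 1 + 1) → Fin (e + 1) → Fin (e + 1) → K

theorem kn_core {n e : ℕ} (hn : n = 2 * e + 5) {t : Fin n → K}
    (D : Fin n → Derivation ℤ K K) (hD : ∀ i j, D i (t j) = if i = j then 1 else 0)
    {W : Fin n → Fin n → Fin n → ZMod 2} (hW : ∀ v a b, W v a b = W v b a)
    (hW0 : ∀ v a, W v a a = 0) :
    2 * ((e + 2) * (e + 2) * (e + 1) * (e + 1)) ≤ (SK W).card := by
  classical
  have ht : Function.Injective t := TL100.injective_of_der t D hD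
  let E : VV K e →ₗ[K] (SK W → K) :=
    LinearMap.pi fun γ => Bip127.evL (t γ.1.1) (t γ.1.2.2.1) (t γ.1.2.1) (t γ.1.2.2.2)
  let E' : VV K e →ₗ[K] (SK W → K) :=
    LinearMap.pi fun γ => Bip127.evL (t γ.1.2.1) (t γ.1.2.2.2) (t γ.1.1) (t γ.1.2.2.1)
  have hE : ∀ c γ, E c γ = evP (toP c) (t γ.1.1) (t γ.1.2.2.1) (t γ.1.2.1) (t γ.1.2.2.2) :=
    fun c γ => (Bip127.evP_toP c _ _ _ _).symm
  have hE' : ∀ c γ, E' c γ = evP (toP c) (t γ.1.2.1) (t γ.1.2.2.2) (t γ.1.1) (t γ.1.2.2.1) :=
    fun c γ => (Bip127.evP_toP c _ _ _ _).symm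
  have hinj : Function.Injective E := by
    rw [injective_iff_map_eq_zero]
    intro c hc
    refine toP_inj c (injective_aux hn D hD hW0 (e + 1 + 1) le_rfl (toP c) (toP_box c) ?_)
    intro a b c' d hdist hx
    have h1 := hE c ⟨(a, b, c', d), mem_SK.2 ⟨hdist, hx⟩⟩
    rw [hc] at h1
    exact h1.symm
  have hinj' : Function.Injective E' := by
    rw [injective_iff_map_eq_zero]
    intro c hc
    refine toP_inj c (injective_aux hn D hD hW0 (e + 1 + 1) le_rfl (toP c) (toP_box c) ?_)
    intro a b c' d hdist hx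
    have hd' : RedK.Dist4 b a d c' :=
      ⟨hdist.1.symm, hdist.2.2.2.2.1, hdist.2.2.2.1, hdist.2.2.1, hdist.2.1, hdist.2.2.2.2.2.symm⟩
    have hx' : xK W b a d c' = 1 := by rw [xK_swap hW]; exact hx
    have h1 := hE' c ⟨(b, a, d, c'), mem_SK.2 ⟨hd', hx'⟩⟩
    rw [hc] at h1
    exact h1.symm
  have hne : ∀ {i k}, i ≠ k → t i + t k ≠ 0 := by
    intro i k hik h0
    rw [← CharTwo.sub_eq_add, sub_eq_zero] at h0
    exact hik (ht h0)
  have key := iso_bound' E E' hinj hinj' (fun γ => wt t γ.1.1 * wt t γ.1.2.1 * wt t γ.1.2.2.1 *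
      wt t γ.1.2.2.2 * (((t γ.1.1 + t γ.1.2.2.1) * (t γ.1.1 + t γ.1.2.2.2)) *
        ((t γ.1.2.1 + t γ.1.2.2.1) * (t γ.1.2.1 + t γ.1.2.2.2)))) ?_ ?_
  · rw [Fintype.card_coe] at key
    refine le_trans (le_of_eq ?_) key
    congr 1
    simp only [Module.finrank_pi_fintype, Module.finrank_self, Finset.sum_const, Finset.card_univ,
      Fintype.card_fin, smul_eq_mul, mul_one]
    ring
  · rintro ⟨γ, hγ⟩
    have hd := (mem_SK.1 hγ).1
    exact mul_ne_zero (mul_ne_zero (mul_ne_zero (mul_ne_zero (wt_ne_zero ht _) (wt_ne_zero ht _))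
      (wt_ne_zero ht _)) (wt_ne_zero ht _)) (mul_ne_zero (mul_ne_zero (hne hd.2.1) (hne hd.2.2.1))
      (mul_ne_zero (hne hd.2.2.2.1) (hne hd.2.2.2.2.1)))
  · intro P Q
    have h := total_zero_n (N := 2 * e + 3) (by omega) ht W
      (fun x0 x1 x2 x3 => evP (toP P) x0 x2 x1 x3 * evP (toP Q) x1 x3 x0 x2 *
        (((x0 + x2) * (x0 + x3)) * ((x1 + x2) * (x1 + x3))))
      (fun x1 x2 x3 => by
        refine IsP.mono ?_ (by omega : (e + 1) + e + (1 + 1) ≤ 2 * e + 3)
        exact ((isP_evP_x le_rfl (toP_box P) x2 x1 x3).mul (isP_evP_z (toP Q) x1 x3 x2)).mul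
          (((IsP.add_const x2).mul (IsP.add_const x3)).mul_const _))
      (fun x0 x2 x3 => by
        refine IsP.mono ?_ (by omega : e + (e + 1) + (1 + 1) ≤ 2 * e + 3)
        exact ((isP_evP_z (toP P) x0 x2 x3).mul (isP_evP_x le_rfl (toP_box Q) x3 x0 x2)).mul
          (((IsP.add_const x2).mul (IsP.add_const x3)).const_mul _))
      (fun x0 x1 x3 => by
        refine IsP.mono ?_ (by omega : (e + 1) + e + (1 + 1) ≤ 2 * e + 3)
        simp only [add_comm x0, add_comm x1]
        exact ((isP_evP_y le_rfl (toP_box P) x0 x1 x3).mul (isP_evP_w (toP Q) x1 x3 x0)).mul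
          (((IsP.add_const x0).mul_const _).mul ((IsP.add_const x1).mul_const _)))
      (fun x0 x1 x2 => by
        refine IsP.mono ?_ (by omega : e + (e + 1) + (1 + 1) ≤ 2 * e + 3)
        simp only [add_comm x0, add_comm x1]
        exact ((isP_evP_w (toP P) x0 x2 x1).mul (isP_evP_y le_rfl (toP_box Q) x1 x0 x2)).mul
          (((IsP.add_const x0).const_mul _).mul ((IsP.add_const x1).const_mul _)))
    have h2 : ∑ γ : SK W, wt t γ.1.1 * wt t γ.1.2.1 * wt t γ.1.2.2.1 *
        wt t γ.1.2.2.2 * (((t γ.1.1 + t γ.1.2.2.1) * (t γ.1.1 + t γ.1.2.2.2)) *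
        ((t γ.1.2.1 + t γ.1.2.2.1) * (t γ.1.2.1 + t γ.1.2.2.2))) * (E P γ * E' Q γ) =
        ∑ q ∈ SK W, wt t q.1 * wt t q.2.1 * wt t q.2.2.1 *
        wt t q.2.2.2 * (((t q.1 + t q.2.2.1) * (t q.1 + t q.2.2.2)) *
        ((t q.2.1 + t q.2.2.1) * (t q.2.1 + t q.2.2.2))) *
        (evP (toP P) (t q.1) (t q.2.2.1) (t q.2.1) (t q.2.2.2) *
          evP (toP Q) (t q.2.1) (t q.2.2.2) (t q.1) (t q.2.2.1)) := by
      rw [← Finset.sum_coe_sort (SK W)]
      refine Finset.sum_congr rfl fun γ _ => ?_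
      rw [hE, hE']
    rw [h2, ← h, SK, Finset.sum_filter, Fintype.sum_prod_type]
    refine Finset.sum_congr rfl fun a _ => ?_
    rw [Fintype.sum_prod_type]
    refine Finset.sum_congr rfl fun b _ => ?_
    rw [Fintype.sum_prod_type]
    refine Finset.sum_congr rfl fun c _ => Finset.sum_congr rfl fun d _ => ?_
    rw [phi_mul]
    by_cases hx : xK W a b c d = 1
    · rw [if_pos hx]
      by_cases hab : a = b
      · subst hab; rw [xK_left hW0] at hx; exact absurd hx (by decide)
      by_cases hcd : c = d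
      · subst hcd; rw [xK_right hW0] at hx; exact absurd hx (by decide)
      by_cases hac : a = c
      · subst hac
        rw [if_neg (fun h => h.1.2.1 rfl), CharTwo.add_self_eq_zero (t a)]; ring
      by_cases had : a = d
      · subst had
        rw [if_neg (fun h => h.1.2.2.1 rfl), CharTwo.add_self_eq_zero (t a)]; ring
      by_cases hbc : b = c
      · subst hbc
        rw [if_neg (fun h => h.1.2.2.2.1 rfl), CharTwo.add_self_eq_zero (t b)]; ring
      by_cases hbd : b = d
      · subst hbd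
        rw [if_neg (fun h => h.1.2.2.2.2.1 rfl), CharTwo.add_self_eq_zero (t b)]; ring
      rw [if_pos ⟨⟨hab, hac, had, hbc, hbd, hcd⟩, hx⟩]
      ring
    · rw [if_neg hx, if_neg (fun h => hx h.2)]

end Core

/-- **The F2 form of Harary–Hill, odd case.** -/
theorem knF2_odd (r : ℕ) (hr : 2 ≤ r) : G172.KnF2 (2 * r + 1) := by
  classical
  obtain ⟨e, rfl⟩ : ∃ e, r = e + 2 := ⟨r - 2, by omega⟩
  intro W hW
  obtain ⟨K, _, _, _, t, D, hD⟩ := Gen259.exists_field (2 * (e + 2) + 1)
  have h := kn_core (e := e) (by ring) D hD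
    (W := fun v a b => if a = b then 0 else W v a b)
    (fun v a b => by
      by_cases hab : a = b
      · subst hab; rfl
      · simp only [if_neg hab, if_neg (Ne.symm hab), hW v a b])
    (fun v a => by simp)
  have hS : SK (fun v a b => if a = b then 0 else W v a b) = SK W := by
    ext q
    rw [mem_SK, mem_SK]
    refine and_congr_right fun hd => ?_
    simp only [xK, if_neg hd.2.2.2.2.2, if_neg hd.1]
  rw [hS] at h
  have e1 : (2 * (e + 2) + 1) / 2 = e + 2 := by omega
  have e2 : (2 * (e + 2) + 1 - 1) / 2 = e + 2 := by omega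
  have e3 : (2 * (e + 2) + 1 - 2) / 2 = e + 1 := by omega
  have e4 : (2 * (e + 2) + 1 - 3) / 2 = e + 1 := by omega
  rw [e1, e2, e3, e4]
  exact h

end Crest.Agent.R36.Kn127
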