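import Mathlib
import Crest.Agent.R36.Glue172
import Crest.Agent.R36.Iso172
import Crest.Agent.R36.Gen259
import Crest.Agent.R36.Exch413

/-! R36 (helper810): `KnF2 (2r+1)`, `r ≥ 2`, from the tournament theorem (T).
Non-symmetric box form of helper21 (#12414). -/

set_option autoImplicit false
set_option linter.unusedSectionVars false

namespace Crest.Agent.R36.Kn810

open Finset Polynomial
open Crest.Agent.R36.G172 Crest.Agent.R036

/-! ### Lagrange weights -/

section Lag

variable {K ι : Type*} [Field K] [CharP K 2] [Fintype ι] [DecidableEq ι]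

/-- Lagrange weights (characteristic 2) -/
def om (t : ι → K) (j : ι) : K := (∏ l ∈ Finset.univ.erase j, (t j + t l))⁻¹

omit [CharP K 2] in
/-- `g` is a polynomial function of degree `≤ N` at the nodes -/
def PD (t : ι → K) (N : ℕ) (g : ι → K) : Prop := ∃ f : K[X], f.natDegree ≤ N ∧ ∀ i, g i = f.eval (t i)

theorem lag {t : ι → K} (ht : Function.Injective t) {N : ℕ} {g : ι → K} (hg : PD t N g)
    (hN : N + 2 ≤ Fintype.card ι) : ∑ i, om t i * g i = 0 := by
  obtain ⟨f, hf, hfg⟩ := hg
  have h := Lagrange.coeff_eq_sum (s := (Finset.univ : Finset ι)) (v := t) (ht.injOn) (P := f) (by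
    refine lt_of_le_of_lt Polynomial.degree_le_natDegree ?_
    rw [Finset.card_univ]
    exact_mod_cast (by omega : f.natDegree < Fintype.card ι))
  rw [Polynomial.coeff_eq_zero_of_natDegree_lt (by rw [Finset.card_univ]; omega)] at h
  rw [h]
  refine Finset.sum_congr rfl fun i _ => ?_
  rw [hfg, om, div_eq_mul_inv, mul_comm]
  congr 2
  refine Finset.prod_congr rfl fun q _ => ?_
  rw [CharTwo.sub_eq_add]

omit [CharP K 2] [Fintype ι] [DecidableEq ι] in
theorem PD.const (t : ι → K) (c : K) : PD t 0 (fun _ => c) := ⟨C c, by simp, by simp⟩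

omit [CharP K 2] [Fintype ι] [DecidableEq ι] in
theorem PD.id (t : ι → K) : PD t 1 t := ⟨X, by simp, by simp⟩

omit [CharP K 2] [Fintype ι] [DecidableEq ι] in
theorem PD.mono {t : ι → K} {N M : ℕ} {g : ι → K} (h : PD t N g) (hNM : N ≤ M) : PD t M g := by
  obtain ⟨f, hf, hfg⟩ := h
  exact ⟨f, hf.trans hNM, hfg⟩

omit [CharP K 2] [Fintype ι] [DecidableEq ι] in
theorem PD.mul {t : ι → K} {N M : ℕ} {g h : ι → K} (hg : PD t N g) (hh : PD t M h) :
    PD t (N + M) (fun i => g i * h i) := by
  obtain ⟨f, hf, hfg⟩ := hg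
  obtain ⟨f', hf', hfg'⟩ := hh
  exact ⟨f * f', (Polynomial.natDegree_mul_le).trans (by omega), fun i => by simp only [hfg, hfg', eval_mul]⟩

omit [CharP K 2] [Fintype ι] [DecidableEq ι] in
theorem PD.add {t : ι → K} {N : ℕ} {g h : ι → K} (hg : PD t N g) (hh : PD t N h) :
    PD t N (fun i => g i + h i) := by
  obtain ⟨f, hf, hfg⟩ := hg
  obtain ⟨f', hf', hfg'⟩ := hh
  exact ⟨f + f', (Polynomial.natDegree_add_le _ _).trans (max_le hf hf'),
    fun i => by simp only [hfg, hfg', eval_add]⟩

omit [CharP K 2] [Fintype ι] [DecidableEq ι] in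
theorem PD.sum {β : Type*} {t : ι → K} {N : ℕ} (s : Finset β) {g : β → ι → K}
    (hg : ∀ b ∈ s, PD t N (g b)) : PD t N (fun i => ∑ b ∈ s, g b i) := by
  classical
  induction s using Finset.induction_on with
  | empty => simpa using (PD.const t 0).mono (Nat.zero_le N)
  | insert b s hb ih =>
    have h1 := hg b (Finset.mem_insert_self b s)
    have h2 := ih fun c hc => hg c (Finset.mem_insert_of_mem hc)
    have := h1.add h2
    simpa [Finset.sum_insert hb] using this

omit [CharP K 2] [Fintype ι] [DecidableEq ι] in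
theorem PD.pow {t : ι → K} {N : ℕ} {g : ι → K} (hg : PD t N g) (k : ℕ) :
    PD t (k * N) (fun i => g i ^ k) := by
  obtain ⟨f, hf, hfg⟩ := hg
  exact ⟨f ^ k, (Polynomial.natDegree_pow_le).trans (Nat.mul_le_mul_left _ hf),
    fun i => by simp only [hfg, eval_pow]⟩

omit [CharP K 2] [Fintype ι] [DecidableEq ι] in
theorem PD.mono_pow (t : ι → K) (k : ℕ) : PD t k (fun i => t i ^ k) := by
  simpa using (PD.id t).pow k

omit [CharP K 2] [Fintype ι] [DecidableEq ι] in
theorem PD.addc (t : ι → K) (c : K) : PD t 1 (fun i => t i + c) :=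
  (PD.id t).add ((PD.const t c).mono (Nat.zero_le 1))

omit [CharP K 2] [Fintype ι] [DecidableEq ι] in
theorem PD.cadd (t : ι → K) (c : K) : PD t 1 (fun i => c + t i) :=
  ((PD.const t c).mono (Nat.zero_le 1)).add (PD.id t)

omit [CharP K 2] [Fintype ι] [DecidableEq ι] in
theorem PD.prod (t : ι → K) {β : Type*} (A : Finset β) (u : β → K) :
    PD t A.card (fun i => ∏ q ∈ A, (t i + u q)) := by
  classical
  induction A using Finset.induction_on with
  | empty => simpa using PD.const t 1
  | insert b s hb ih =>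
    have := (PD.addc t (u b)).mul ih
    rw [Finset.card_insert_of_notMem hb]
    simpa [Finset.prod_insert hb, add_comm] using this

theorem om_ne {t : ι → K} (ht : Function.Injective t) (j : ι) : om t j ≠ 0 := by
  refine inv_ne_zero (Finset.prod_ne_zero_iff.2 fun l hl => ?_)
  rw [← CharTwo.sub_eq_add, sub_ne_zero]
  exact fun h => (Finset.mem_erase.1 hl).1 (ht h).symm

end Lag

/-! ### The trivial identity (E'') -/

section E2

variable {K : Type*} [Field K] [CharP K 2] {n : ℕ}

/-- the ring hom `ZMod 2 → K` -/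
noncomputable def ph (K : Type*) [Field K] [CharP K 2] : ZMod 2 →+* K := ZMod.castHom (dvd_refl 2) K

theorem ph_eq (x : ZMod 2) : ph K x = if x = 1 then 1 else 0 := by
  have : x = 0 ∨ x = 1 := by revert x; decide
  rcases this with rfl | rfl <;> simp

theorem miss4 (w : Fin n → K) (U : Fin n → Fin n → Fin n → Fin n → K)
    (hU : ∀ a b c, ∑ d, w d * U a b c d = 0) (f : Fin n → Fin n → Fin n → K) :
    ∑ a, ∑ b, ∑ c, ∑ d, f a b c * (w a * w b * w c * w d * U a b c d) = 0 := by
  refine Finset.sum_eq_zero fun a _ => Finset.sum_eq_zero fun b _ => Finset.sum_eq_zero fun c _ => ?_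
  have : ∀ d, f a b c * (w a * w b * w c * w d * U a b c d) =
      (f a b c * (w a * w b * w c)) * (w d * U a b c d) := fun d => by ring
  simp only [this]
  rw [← Finset.mul_sum, hU, mul_zero]

theorem miss3 (w : Fin n → K) (U : Fin n → Fin n → Fin n → Fin n → K)
    (hU : ∀ a b d, ∑ c, w c * U a b c d = 0) (f : Fin n → Fin n → Fin n → K) :
    ∑ a, ∑ b, ∑ c, ∑ d, f a b d * (w a * w b * w c * w d * U a b c d) = 0 := by
  refine Finset.sum_eq_zero fun a _ => Finset.sum_eq_zero fun b _ => ?_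
  rw [Finset.sum_comm]
  refine Finset.sum_eq_zero fun d _ => ?_
  have : ∀ c, f a b d * (w a * w b * w c * w d * U a b c d) =
      (f a b d * (w a * w b * w d)) * (w c * U a b c d) := fun c => by ring
  simp only [this]
  rw [← Finset.mul_sum, hU, mul_zero]

theorem miss2 (w : Fin n → K) (U : Fin n → Fin n → Fin n → Fin n → K)
    (hU : ∀ a c d, ∑ b, w b * U a b c d = 0) (f : Fin n → Fin n → Fin n → K) :
    ∑ a, ∑ b, ∑ c, ∑ d, f a c d * (w a * w b * w c * w d * U a b c d) = 0 := by
  refine Finset.sum_eq_zero fun a _ => ?_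
  rw [Finset.sum_comm]
  refine Finset.sum_eq_zero fun c _ => ?_
  rw [Finset.sum_comm]
  refine Finset.sum_eq_zero fun d _ => ?_
  have : ∀ b, f a c d * (w a * w b * w c * w d * U a b c d) =
      (f a c d * (w a * w c * w d)) * (w b * U a b c d) := fun b => by ring
  simp only [this]
  rw [← Finset.mul_sum, hU, mul_zero]

theorem miss1 (w : Fin n → K) (U : Fin n → Fin n → Fin n → Fin n → K)
    (hU : ∀ b c d, ∑ a, w a * U a b c d = 0) (f : Fin n → Fin n → Fin n → K) :
    ∑ a, ∑ b, ∑ c, ∑ d, f b c d * (w a * w b * w c * w d * U a b c d) = 0 := by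
  rw [Finset.sum_comm]
  refine Finset.sum_eq_zero fun b _ => ?_
  rw [Finset.sum_comm]
  refine Finset.sum_eq_zero fun c _ => ?_
  rw [Finset.sum_comm]
  refine Finset.sum_eq_zero fun d _ => ?_
  have : ∀ a, f b c d * (w a * w b * w c * w d * U a b c d) =
      (f b c d * (w b * w c * w d)) * (w a * U a b c d) := fun a => by ring
  simp only [this]
  rw [← Finset.mul_sum, hU, mul_zero]

/-- (E'') -/
theorem E2 (W : Fin n → Fin n → Fin n → ZMod 2) (w : Fin n → K)
    (U : Fin n → Fin n → Fin n → Fin n → K)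
    (h1 : ∀ b c d, ∑ a, w a * U a b c d = 0) (h2 : ∀ a c d, ∑ b, w b * U a b c d = 0)
    (h3 : ∀ a b d, ∑ c, w c * U a b c d = 0) (h4 : ∀ a b c, ∑ d, w d * U a b c d = 0) :
    ∑ a, ∑ b, ∑ c, ∑ d, ph K (xK W a b c d) * (w a * w b * w c * w d * U a b c d) = 0 := by
  have e : ∀ a b c d, ph K (xK W a b c d) * (w a * w b * w c * w d * U a b c d) =
      (((ph K (iv (a < c)) + ph K (W c a b)) * (w a * w b * w c * w d * U a b c d)
      + (ph K (iv (a < d)) + ph K (W d a b)) * (w a * w b * w c * w d * U a b c d))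
      + (ph K (iv (b < c)) + ph K (W b c d)) * (w a * w b * w c * w d * U a b c d))
      + (ph K (iv (b < d)) + ph K (W a c d)) * (w a * w b * w c * w d * U a b c d) := by
    intro a b c d
    simp only [xK, map_add]
    ring
  simp only [e, Finset.sum_add_distrib]
  have a1 := miss4 w U h4 (fun a b c => ph K (iv (a < c)) + ph K (W c a b))
  have a2 := miss3 w U h3 (fun a b d => ph K (iv (a < d)) + ph K (W d a b))
  have a3 := miss1 w U h1 (fun b c d => ph K (iv (b < c)) + ph K (W b c d))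
  have a4 := miss2 w U h2 (fun a c d => ph K (W a c d))
  have a5 := miss1 w U h1 (fun b c d => ph K (iv (b < d)))
  rw [a1, a2, a3]
  simp only [add_mul, Finset.sum_add_distrib, a4, a5, add_zero]

end E2

/-! ### Box polynomials -/

section Box

variable {K : Type*} [Field K] [CharP K 2]

/-- evaluation of a coefficient array: degrees `< m, < s, < m, < s` -/
def E4 (m s : ℕ) (C : ℕ → ℕ → ℕ → ℕ → K) (x y z w : K) : K :=
  ∑ j ∈ range s, ∑ l ∈ range s, ∑ i ∈ range m, ∑ k ∈ range m,
    C i j k l * x ^ i * y ^ j * z ^ k * w ^ l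

variable {ι : Type*} {t : ι → K} {m s : ℕ} {C : ℕ → ℕ → ℕ → ℕ → K}

theorem E4_pd1 (y z w : K) : PD t (m - 1) (fun a => E4 m s C (t a) y z w) := by
  unfold E4
  refine PD.sum _ fun j hj => PD.sum _ fun l hl => PD.sum _ fun i hi => PD.sum _ fun k hk => ?_
  have h := (((PD.mono_pow t i).mul (PD.const t (C i j k l * y ^ j * z ^ k * w ^ l)))).mono
    (M := m - 1) (by have := Finset.mem_range.1 hi; omega)
  convert h using 2
  ring

theorem E4_pd2 (x z w : K) : PD t (s - 1) (fun a => E4 m s C x (t a) z w) := by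
  unfold E4
  refine PD.sum _ fun j hj => PD.sum _ fun l hl => PD.sum _ fun i hi => PD.sum _ fun k hk => ?_
  have h := (((PD.mono_pow t j).mul (PD.const t (C i j k l * x ^ i * z ^ k * w ^ l)))).mono
    (M := s - 1) (by have := Finset.mem_range.1 hj; omega)
  convert h using 2
  ring

theorem E4_pd3 (x y w : K) : PD t (m - 1) (fun a => E4 m s C x y (t a) w) := by
  unfold E4
  refine PD.sum _ fun j hj => PD.sum _ fun l hl => PD.sum _ fun i hi => PD.sum _ fun k hk => ?_
  have h := (((PD.mono_pow t k).mul (PD.const t (C i j k l * x ^ i * y ^ j * w ^ l)))).mono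
    (M := m - 1) (by have := Finset.mem_range.1 hk; omega)
  convert h using 2
  ring

theorem E4_pd4 (x y z : K) : PD t (s - 1) (fun a => E4 m s C x y z (t a)) := by
  unfold E4
  refine PD.sum _ fun j hj => PD.sum _ fun l hl => PD.sum _ fun i hi => PD.sum _ fun k hk => ?_
  have h := (((PD.mono_pow t l).mul (PD.const t (C i j k l * x ^ i * y ^ j * z ^ k)))).mono
    (M := s - 1) (by have := Finset.mem_range.1 hl; omega)
  convert h using 2
  ring

end Box

/-! ### Division by `x + y` -/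

section Div

variable {K : Type*} [Field K] [CharP K 2]

/-- the quotient array -/
def quo (D : ℕ → ℕ → K) (a b : ℕ) : K := ∑ x ∈ range (b + 1), D (a + 1 + x) (b - x)

theorem quo_succ (D : ℕ → ℕ → K) (a b : ℕ) :
    quo D a (b + 1) = D (a + 1) (b + 1) + quo D (a + 1) b := by
  unfold quo
  rw [Finset.sum_range_succ' _ (b + 1), add_comm]
  congr 1
  refine Finset.sum_congr rfl fun x hx => ?_
  have := Finset.mem_range.1 hx
  rw [show b + 1 - (x + 1) = b - x by omega, show a + 1 + (x + 1) = a + 1 + 1 + x by omega]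

theorem quo_zero (D : ℕ → ℕ → K) (a : ℕ) : quo D a 0 = D (a + 1) 0 := by
  simp [quo]

variable {D : ℕ → ℕ → K} {m : ℕ}

theorem D_zero (h : ∀ u, ∑ p ∈ antidiagonal u, D p.1 p.2 = 0) : D 0 0 = 0 := by
  simpa using h 0

theorem quo_zero' (h : ∀ u, ∑ p ∈ antidiagonal u, D p.1 p.2 = 0) (k : ℕ) :
    quo D 0 k = D 0 (k + 1) := by
  have h1 := h (k + 1)
  rw [Finset.Nat.sum_antidiagonal_eq_sum_range_succ_mk, Finset.sum_range_succ'] at h1
  simp only [Nat.sub_zero] at h1
  have h2 : quo D 0 k = ∑ x ∈ range (k + 1), D (x + 1) (k + 1 - (x + 1)) := by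
    unfold quo
    refine Finset.sum_congr rfl fun x hx => ?_
    have := Finset.mem_range.1 hx
    rw [show k + 1 - (x + 1) = k - x by omega, show 0 + 1 + x = x + 1 by omega]
  rw [h2]
  exact CharTwo.add_eq_zero.1 h1

theorem quo_supp1 (hD : ∀ i k, m < i ∨ m < k → D i k = 0) {a b : ℕ} (ha : m ≤ a) :
    quo D a b = 0 :=
  Finset.sum_eq_zero fun x _ => hD _ _ (Or.inl (by omega))

theorem quo_supp2 (hD : ∀ i k, m < i ∨ m < k → D i k = 0)
    (h : ∀ u, ∑ p ∈ antidiagonal u, D p.1 p.2 = 0) {a b : ℕ} (hb : m ≤ b) :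
    quo D a b = 0 := by
  have h1 := h (a + 1 + b)
  rw [Finset.Nat.sum_antidiagonal_eq_sum_range_succ_mk,
    show (a + 1 + b).succ = (a + 1) + (b + 1) by omega, Finset.sum_range_add] at h1
  have h2 : ∑ x ∈ range (a + 1), D x (a + 1 + b - x) = 0 := by
    refine Finset.sum_eq_zero fun x hx => hD _ _ (Or.inr ?_)
    have := Finset.mem_range.1 hx
    omega
  simp only at h1
  rw [h2, zero_add] at h1
  rw [← h1]
  unfold quo
  refine Finset.sum_congr rfl fun x hx => ?_
  have := Finset.mem_range.1 hx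
  rw [show a + 1 + b - (a + 1 + x) = b - x by omega]

/-- evaluation of the division -/
theorem quo_eval (hD : ∀ i k, m < i ∨ m < k → D i k = 0)
    (h : ∀ u, ∑ p ∈ antidiagonal u, D p.1 p.2 = 0) (x y : K) :
    ∑ i ∈ range (m + 1), ∑ k ∈ range (m + 1), D i k * x ^ i * y ^ k =
      (x + y) * ∑ a ∈ range m, ∑ b ∈ range m, quo D a b * x ^ a * y ^ b := by
  have e1 : ∑ a ∈ range m, ∑ b ∈ range m, quo D a b * x ^ a * y ^ b =
      ∑ a ∈ range m, (quo D a 0 * x ^ a + ∑ b ∈ range m, quo D a (b + 1) * x ^ a * y ^ (b + 1)) := by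
    refine Finset.sum_congr rfl fun a _ => ?_
    have : ∑ b ∈ range (m + 1), quo D a b * x ^ a * y ^ b =
        ∑ b ∈ range m, quo D a b * x ^ a * y ^ b := by
      rw [Finset.sum_range_succ, quo_supp2 hD h le_rfl]; ring
    rw [← this, Finset.sum_range_succ', pow_zero, mul_one, add_comm]
  have e2 : ∑ a ∈ range m, ∑ b ∈ range m, quo D a b * x ^ a * y ^ b =
      (∑ b ∈ range m, quo D 0 b * y ^ b) +
        ∑ a ∈ range m, ∑ b ∈ range m, quo D (a + 1) b * x ^ (a + 1) * y ^ b := by
    have : ∑ a ∈ range (m + 1), ∑ b ∈ range m, quo D a b * x ^ a * y ^ b =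
        ∑ a ∈ range m, ∑ b ∈ range m, quo D a b * x ^ a * y ^ b := by
      rw [Finset.sum_range_succ]
      simp [quo_supp1 hD le_rfl]
    rw [← this, Finset.sum_range_succ', add_comm]
    simp
  rw [add_mul]
  nth_rewrite 1 [e1]
  rw [e2, Finset.sum_range_succ']
  have e3 : ∑ k ∈ range (m + 1), D 0 k * x ^ 0 * y ^ k =
      y * ∑ b ∈ range m, quo D 0 b * y ^ b := by
    rw [Finset.sum_range_succ', D_zero h, Finset.mul_sum]
    simp only [zero_mul, add_zero]
    refine Finset.sum_congr rfl fun b _ => ?_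
    rw [quo_zero' h]; ring
  have e4 : ∑ i ∈ range m, ∑ k ∈ range (m + 1), D (i + 1) k * x ^ (i + 1) * y ^ k =
      x * (∑ a ∈ range m, (quo D a 0 * x ^ a + ∑ b ∈ range m, quo D a (b + 1) * x ^ a * y ^ (b + 1)))
      + y * ∑ a ∈ range m, ∑ b ∈ range m, quo D (a + 1) b * x ^ (a + 1) * y ^ b := by
    rw [Finset.mul_sum, Finset.mul_sum, ← Finset.sum_add_distrib]
    refine Finset.sum_congr rfl fun a _ => ?_
    rw [Finset.sum_range_succ', mul_add, Finset.mul_sum, Finset.mul_sum, quo_zero, add_comm,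
      add_assoc, ← Finset.sum_add_distrib]
    congr 1
    · ring
    · refine Finset.sum_congr rfl fun b _ => ?_
      rw [quo_succ]
      linear_combination (-(quo D (a + 1) b * x ^ (a + 1) * y ^ (b + 1))) *
        (CharTwo.two_eq_zero (R := K))
  rw [e3, e4]
  ring

theorem quo_inj (h : ∀ u, ∑ p ∈ antidiagonal u, D p.1 p.2 = 0)
    (h0 : ∀ a b, quo D a b = 0) (i k : ℕ) : D i k = 0 := by
  rcases i with _ | i
  · rcases k with _ | k
    · exact D_zero h
    · rw [← quo_zero' h, h0]
  · rcases k with _ | k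
    · exact (quo_zero D i).symm.trans (h0 i 0)
    · have := quo_succ D i k
      rw [h0, h0, add_zero] at this
      exact this.symm

end Div

/-! ### The normalised rotation data -/

section Norm

variable {n : ℕ}

/-- `W` made zero on degenerate triples -/
def nW (W : Fin n → Fin n → Fin n → ZMod 2) (v a b : Fin n) : ZMod 2 :=
  if v ≠ a ∧ v ≠ b ∧ a ≠ b then W v a b else 0

variable {W : Fin n → Fin n → Fin n → ZMod 2}

theorem two_zmod (x : ZMod 2) : x + x = 0 := by revert x; decide

theorem nW_self1 (a b : Fin n) : nW W a a b = 0 := by simp [nW]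
theorem nW_self2 (a b : Fin n) : nW W a b a = 0 := by simp [nW]
theorem nW_self3 (a b : Fin n) : nW W a b b = 0 := by simp [nW]

theorem nW_symm (hW : ∀ v a b, W v a b = W v b a) (v a b : Fin n) : nW W v a b = nW W v b a := by
  unfold nW
  by_cases h : v ≠ a ∧ v ≠ b ∧ a ≠ b
  · rw [if_pos h, if_pos ⟨h.2.1, h.1, h.2.2.symm⟩, hW]
  · rw [if_neg h, if_neg (fun h' => h ⟨h'.2.1, h'.1, h'.2.2.symm⟩)]

theorem xK_nW {a b c d : Fin n} (h : RedK.Dist4 a b c d) : xK (nW W) a b c d = xK W a b c d := by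
  obtain ⟨n1, n2, n3, n4, n5, n6⟩ := h
  have w1 : nW W a c d = W a c d := if_pos ⟨n2, n3, n6⟩
  have w2 : nW W b c d = W b c d := if_pos ⟨n4, n5, n6⟩
  have w3 : nW W d a b = W d a b := if_pos ⟨n3.symm, n5.symm, n1⟩
  have w4 : nW W c a b = W c a b := if_pos ⟨n2.symm, n4.symm, n1⟩
  simp only [xK, w1, w2, w3, w4]

theorem xK_ab (a c d : Fin n) : xK (nW W) a a c d = 0 := by
  simp only [xK, nW_self3]
  have e : ∀ p q r : ZMod 2, p + q + p + q + r + r + 0 + 0 = 0 := by decide
  exact e _ _ _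

theorem xK_cd (a b c : Fin n) : xK (nW W) a b c c = 0 := by
  simp only [xK, nW_self3]
  have e : ∀ p q r : ZMod 2, p + p + q + q + 0 + 0 + r + r = 0 := by decide
  exact e _ _ _

theorem iv_tot {a b : Fin n} (h : a ≠ b) : iv (a < b) + iv (b < a) = 1 := by
  rcases lt_or_gt_of_ne h with h1 | h1
  · simp [iv, h1, not_lt_of_gt h1]
  · simp [iv, h1, not_lt_of_gt h1]

theorem iv_irrefl (a : Fin n) : iv (a < a) = 0 := by simp [iv]

/-- the tournament at `v` -/
theorem tour {v b d : Fin n} (hb : b ≠ v) (hd : d ≠ v)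
    (hbd : b ≠ d) : xK (nW W) v b v d + xK (nW W) v d v b = 1 := by
  have e1 := iv_tot hb
  have e2 := iv_tot hd
  have e3 := iv_tot hbd
  simp only [xK, nW_self1, iv_irrefl]
  have e : ∀ p p' q q' r r' x y : ZMod 2, p + p' = 1 → q + q' = 1 → r + r' = 1 →
      0 + q' + p + r + 0 + x + y + 0 + (0 + p' + q + r' + 0 + y + x + 0) = 1 := by decide
  exact e _ _ _ _ _ _ _ _ e1 e2 e3

end Norm

/-! ### The key sum -/

section Key

variable {K : Type*} [Field K] [CharP K 2] {s : ℕ}

/-- the local form at the vertex `v` -/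
noncomputable def Lf (t : Fin (2 * (s + 2) + 1) → K)
    (W : Fin (2 * (s + 2) + 1) → Fin (2 * (s + 2) + 1) → Fin (2 * (s + 2) + 1) → ZMod 2)
    (m : ℕ) (C : ℕ → ℕ → ℕ → ℕ → K) (v b d : Fin (2 * (s + 2) + 1)) : K :=
  ph K (xK (nW W) v b v d) * (om t b * om t d) * ((t b + t v) * (t d + t v)) *
    E4 m (s + 1) C (t v) (t b) (t v) (t d)

theorem keySum (t : Fin (2 * (s + 2) + 1) → K) (ht : Function.Injective t)
    (W : Fin (2 * (s + 2) + 1) → Fin (2 * (s + 2) + 1) → Fin (2 * (s + 2) + 1) → ZMod 2)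
    (m : ℕ) (hm : m ≤ s + 2) (C : ℕ → ℕ → ℕ → ℕ → K)
    (hC : ∀ a b c d, (a, b, c, d) ∈ SK W → E4 m (s + 1) C (t a) (t b) (t c) (t d) = 0)
    (v : Fin (2 * (s + 2) + 1)) (A B : Finset (Fin (2 * (s + 2) + 1))) (_ : Disjoint A B)
    (hU : A ∪ B = univ.erase v) (hA : A.card = s + 2) (hB : B.card = s + 2) :
    ∑ b ∈ univ.erase v, ∑ d ∈ univ.erase v,
      Lf t W m C v b d * (∏ q ∈ A, (t b + t q)) * (∏ q ∈ B, (t d + t q)) = 0 := by
  classical
  set U : Fin (2 * (s + 2) + 1) → Fin (2 * (s + 2) + 1) → Fin (2 * (s + 2) + 1) →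
    Fin (2 * (s + 2) + 1) → K := fun a b c d =>
    E4 m (s + 1) C (t a) (t b) (t c) (t d) * (((∏ q ∈ A, (t a + t q)) * (∏ q ∈ A, (t b + t q))) *
      ((∏ q ∈ B, (t c + t q)) * (∏ q ∈ B, (t d + t q)))) * ((t b + t v) * (t d + t v)) with hUdef
  have hcard : Fintype.card (Fin (2 * (s + 2) + 1)) = 2 * (s + 2) + 1 := Fintype.card_fin _
  have h1 : ∀ b c d, ∑ a, om t a * U a b c d = 0 := by
    intro b c d
    have h := ((E4_pd1 (t := t) (m := m) (s := s + 1) (C := C) (t b) (t c) (t d)).mul
      (PD.prod t A t)).mul (PD.const t ((∏ q ∈ A, (t b + t q)) *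
      ((∏ q ∈ B, (t c + t q)) * (∏ q ∈ B, (t d + t q))) * ((t b + t v) * (t d + t v))))
    rw [← lag ht h (by rw [hcard, hA]; omega)]
    refine Finset.sum_congr rfl fun a _ => ?_
    simp only [hUdef]; ring
  have h2 : ∀ a c d, ∑ b, om t b * U a b c d = 0 := by
    intro a c d
    have h := (((E4_pd2 (t := t) (m := m) (s := s + 1) (C := C) (t a) (t c) (t d)).mul
      (PD.prod t A t)).mul (PD.addc t (t v))).mul (PD.const t ((∏ q ∈ A, (t a + t q)) *
      ((∏ q ∈ B, (t c + t q)) * (∏ q ∈ B, (t d + t q))) * (t d + t v)))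
    rw [← lag ht h (by rw [hcard, hA]; omega)]
    refine Finset.sum_congr rfl fun b _ => ?_
    simp only [hUdef]; ring
  have h3 : ∀ a b d, ∑ c, om t c * U a b c d = 0 := by
    intro a b d
    have h := ((E4_pd3 (t := t) (m := m) (s := s + 1) (C := C) (t a) (t b) (t d)).mul
      (PD.prod t B t)).mul (PD.const t ((∏ q ∈ A, (t a + t q)) * (∏ q ∈ A, (t b + t q)) *
      (∏ q ∈ B, (t d + t q)) * ((t b + t v) * (t d + t v))))
    rw [← lag ht h (by rw [hcard, hB]; omega)]
    refine Finset.sum_congr rfl fun c _ => ?_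
    simp only [hUdef]; ring
  have h4 : ∀ a b c, ∑ d, om t d * U a b c d = 0 := by
    intro a b c
    have h := (((E4_pd4 (t := t) (m := m) (s := s + 1) (C := C) (t a) (t b) (t c)).mul
      (PD.prod t B t)).mul (PD.addc t (t v))).mul (PD.const t ((∏ q ∈ A, (t a + t q)) *
      (∏ q ∈ A, (t b + t q)) * (∏ q ∈ B, (t c + t q)) * (t b + t v)))
    rw [← lag ht h (by rw [hcard, hB]; omega)]
    refine Finset.sum_congr rfl fun d _ => ?_
    simp only [hUdef]; ring
  have tot := E2 (nW W) (om t) U h1 h2 h3 h4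
  have inA : ∀ x : Fin (2 * (s + 2) + 1), x ∈ A → (∏ q ∈ A, (t x + t q)) = 0 := fun x hx =>
    Finset.prod_eq_zero hx (CharTwo.add_self_eq_zero _)
  have inB : ∀ x : Fin (2 * (s + 2) + 1), x ∈ B → (∏ q ∈ B, (t x + t q)) = 0 := fun x hx =>
    Finset.prod_eq_zero hx (CharTwo.add_self_eq_zero _)
  have inAB : ∀ x : Fin (2 * (s + 2) + 1), x ≠ v → x ∈ A ∨ x ∈ B := fun x hx => by
    rw [← Finset.mem_union, hU]; simp [hx]
  have hG : ∀ a b c d, ¬(a = v ∧ c = v ∧ b ≠ v ∧ d ≠ v) →
      ph K (xK (nW W) a b c d) * (om t a * om t b * om t c * om t d * U a b c d) = 0 := by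
    intro a b c d hn
    by_cases hb : b = v
    · have : U a b c d = 0 := by
        simp only [hUdef, hb, CharTwo.add_self_eq_zero, zero_mul, mul_zero]
      rw [this]; ring
    by_cases hd : d = v
    · have : U a b c d = 0 := by
        simp only [hUdef, hd, CharTwo.add_self_eq_zero, mul_zero]
      rw [this]; ring
    by_cases hab : a = b
    · rw [hab, xK_ab, map_zero, zero_mul]
    by_cases hcd : c = d
    · rw [hcd, xK_cd, map_zero, zero_mul]
    by_cases had : a = d
    · have : U a b c d = 0 := by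
        rcases inAB d hd with h | h
        · simp only [hUdef, had, inA d h, zero_mul, mul_zero]
        · simp only [hUdef, inB d h, zero_mul, mul_zero]
      rw [this]; ring
    by_cases hbc : b = c
    · have : U a b c d = 0 := by
        rcases inAB b hb with h | h
        · simp only [hUdef, inA b h, zero_mul, mul_zero]
        · simp only [hUdef, ← hbc, inB b h, zero_mul, mul_zero]
      rw [this]; ring
    by_cases hbd : b = d
    · have : U a b c d = 0 := by
        rcases inAB b hb with h | h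
        · simp only [hUdef, inA b h, zero_mul, mul_zero]
        · simp only [hUdef, ← hbd, inB b h, zero_mul, mul_zero]
      rw [this]; ring
    by_cases hac : a = c
    · have hav : a ≠ v := fun h => hn ⟨h, hac ▸ h, hb, hd⟩
      have : U a b c d = 0 := by
        rcases inAB a hav with h | h
        · simp only [hUdef, inA a h, zero_mul, mul_zero]
        · simp only [hUdef, ← hac, inB a h, zero_mul, mul_zero]
      rw [this]; ring
    have hD : RedK.Dist4 a b c d := ⟨hab, hac, had, hbc, hbd, hcd⟩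
    rw [xK_nW hD, ph_eq]
    split_ifs with hx
    · have : U a b c d = 0 := by
        simp only [hUdef, hC a b c d (mem_SK.2 ⟨hD, hx⟩), zero_mul]
      rw [this]; ring
    · ring
  rw [Finset.sum_eq_single v (fun a _ ha => Finset.sum_eq_zero fun b _ =>
    Finset.sum_eq_zero fun c _ => Finset.sum_eq_zero fun d _ => hG a b c d (fun h => ha h.1))
    (fun h => absurd (Finset.mem_univ v) h)] at tot
  rw [← Finset.sum_erase (s := univ) (a := v) (f := fun b => ∑ c, ∑ d,
    ph K (xK (nW W) v b c d) * (om t v * om t b * om t c * om t d * U v b c d))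
    (Finset.sum_eq_zero fun c _ => Finset.sum_eq_zero fun d _ =>
      hG v v c d (fun h => h.2.2.1 rfl))] at tot
  have e : ∀ b ∈ univ.erase v, (∑ c, ∑ d,
      ph K (xK (nW W) v b c d) * (om t v * om t b * om t c * om t d * U v b c d)) =
      (om t v * om t v * ((∏ q ∈ A, (t v + t q)) * (∏ q ∈ B, (t v + t q)))) *
      ∑ d ∈ univ.erase v,
      Lf t W m C v b d * (∏ q ∈ A, (t b + t q)) * (∏ q ∈ B, (t d + t q)) := by
    intro b _
    rw [Finset.sum_eq_single v (fun c _ hc => Finset.sum_eq_zero fun d _ =>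
      hG v b c d (fun h => hc h.2.1)) (fun h => absurd (Finset.mem_univ v) h),
      ← Finset.sum_erase (s := univ) (a := v) (f := fun d =>
        ph K (xK (nW W) v b v d) * (om t v * om t b * om t v * om t d * U v b v d))
        (hG v b v v (fun h => h.2.2.2 rfl)), Finset.mul_sum]
    refine Finset.sum_congr rfl fun d _ => ?_
    simp only [hUdef, Lf]; ring
  rw [Finset.sum_congr rfl e, ← Finset.mul_sum] at tot
  refine (mul_eq_zero.1 tot).resolve_left ?_
  have hne : ∀ x : Fin (2 * (s + 2) + 1), x ≠ v → t v + t x ≠ 0 := fun x hx => by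
    rw [← CharTwo.sub_eq_add, sub_ne_zero]
    exact fun h => hx (ht h).symm
  refine mul_ne_zero (mul_ne_zero (om_ne ht v) (om_ne ht v)) (mul_ne_zero ?_ ?_)
  · refine Finset.prod_ne_zero_iff.2 fun x hx => hne x ?_
    have : x ∈ univ.erase v := hU ▸ Finset.mem_union_left _ hx
    exact (Finset.mem_erase.1 this).1
  · refine Finset.prod_ne_zero_iff.2 fun x hx => hne x ?_
    have : x ∈ univ.erase v := hU ▸ Finset.mem_union_right _ hx
    exact (Finset.mem_erase.1 this).1

end Key

/-! ### The local forms vanish, by (T) -/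

section Loc

/-- evaluation of a square coefficient array -/
def ev2 {K : Type*} [Field K] {N : ℕ} (p : Fin N → Fin N → K) (x y : K) : K :=
  ∑ a, ∑ b, p a b * x ^ (a : ℕ) * y ^ (b : ℕ)

/-- the tournament theorem, form of helper635 -/
def TForm (K : Type) [Field K] : Prop :=
  ∀ (ι : Type) [Fintype ι] [DecidableEq ι] (t : ι → K) (D : ι → Derivation ℤ K K),
    (∀ i j, D i (t j) = if i = j then 1 else 0) → ∀ e : ℕ, Fintype.card ι = 2 * e + 3 →
    ∀ T : ι → ι → ZMod 2, (∀ i j, i ≠ j → T i j + T j i = 1) →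
    ∀ p : Fin (e + 1) → Fin (e + 1) → K,
      (∀ a b : ℕ, a ≤ e → b ≤ e → ∑ i, ∑ j, (if T i j = 1 ∧ i ≠ j then
        om t i * om t j * (t i + t j) * ev2 p (t i) (t j) * t i ^ a * t j ^ b else 0) = 0) →
      p = 0

variable {K : Type} [Field K] [CharP K 2] {s : ℕ}

theorem om_sub {n : ℕ} (t : Fin n → K) (ht : Function.Injective t) {v q : Fin n} (hq : q ≠ v)
    {fi : Fintype {x // x ∈ (univ.erase v).erase q}}
    {di : DecidableEq {x // x ∈ (univ.erase v).erase q}}
    (b : {x // x ∈ (univ.erase v).erase q}) :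
    om t b.1 * ((t b.1 + t v) * (t b.1 + t q)) =
      @om K {x // x ∈ (univ.erase v).erase q} _ fi di (fun x => t x.1) b := by
  obtain ⟨b, hb⟩ := b
  have hb' := hb
  rw [Finset.mem_erase, Finset.mem_erase] at hb'
  have hne : ∀ x : Fin n, b ≠ x → t b + t x ≠ 0 := fun x hx => by
    rw [← CharTwo.sub_eq_add, sub_ne_zero]
    exact fun h => hx (ht h)
  have hv := hne v hb'.2.1
  have hq' := hne q hb'.1
  unfold om
  have e1 : ∏ l ∈ univ.erase b, (t b + t l) =
      (t b + t v) * ((t b + t q) * ∏ l ∈ ((univ.erase v).erase q).erase b, (t b + t l)) := by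
    have e0 : ((univ.erase v).erase q).erase b = ((univ.erase b).erase v).erase q := by
      ext x; simp only [Finset.mem_erase, Finset.mem_univ, and_true]; tauto
    rw [e0, Finset.mul_prod_erase _ (fun l => t b + t l), Finset.mul_prod_erase _ (fun l => t b + t l)]
    · simp [hb'.2.1.symm]
    · simp [hq, hb'.1.symm]
  have e2 : ∏ l ∈ (univ.erase (⟨b, hb⟩ : {x // x ∈ (univ.erase v).erase q})), (t b + t l.1) =
      ∏ l ∈ ((univ.erase v).erase q).erase b, (t b + t l) := by
    refine Finset.prod_nbij (fun x => x.1) ?_ ?_ ?_ (fun _ _ => rfl)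
    · intro x hx
      refine Finset.mem_erase.2 ⟨fun h => ?_, x.2⟩
      exact (Finset.mem_erase.1 hx).1 (Subtype.ext h)
    · intro x _ y _ hxy
      exact Subtype.ext hxy
    · intro x hx
      have hx' := Finset.mem_erase.1 (Finset.mem_coe.1 hx)
      exact ⟨⟨x, hx'.2⟩, Finset.mem_coe.2 (Finset.mem_erase.2
        ⟨fun h => hx'.1 (congrArg Subtype.val h), Finset.mem_univ _⟩), rfl⟩
  rw [e1]
  simp only [e2]
  have h3 : ∏ l ∈ ((univ.erase v).erase q).erase b, (t b + t l) ≠ 0 :=
    Finset.prod_ne_zero_iff.2 fun x hx => hne x (Finset.mem_erase.1 hx).1.symm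
  field_simp

theorem local_zero (hTF : TForm K) (t : Fin (2 * (s + 2) + 1) → K)
    (D : Fin (2 * (s + 2) + 1) → Derivation ℤ K K)
    (hD : ∀ i j, D i (t j) = if i = j then 1 else 0) (ht : Function.Injective t)
    (W : Fin (2 * (s + 2) + 1) → Fin (2 * (s + 2) + 1) → Fin (2 * (s + 2) + 1) → ZMod 2)
    (m : ℕ) (hm : m ≤ s + 2) (C : ℕ → ℕ → ℕ → ℕ → K)
    (hC : ∀ a b c d, (a, b, c, d) ∈ SK W → E4 m (s + 1) C (t a) (t b) (t c) (t d) = 0)
    (v : Fin (2 * (s + 2) + 1)) (j l : ℕ) (hj : j < s + 1) (hl : l < s + 1) :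
    ∑ i ∈ range m, ∑ k ∈ range m, C i j k l * t v ^ i * t v ^ k = 0 := by
  classical
  have : Nontrivial (Fin (2 * (s + 2) + 1)) := Fin.nontrivial_iff_two_le.2 (by omega)
  obtain ⟨q, hq⟩ := exists_ne v
  have hE : (univ.erase v).card = 2 * (s + 2) := by
    rw [Finset.card_erase_of_mem (Finset.mem_univ _), Finset.card_univ, Fintype.card_fin]; omega
  have hqE : q ∈ univ.erase v := Finset.mem_erase.2 ⟨hq, Finset.mem_univ _⟩
  have key := Exch413.exch' t (univ.erase v) ht.injOn (s + 2) (by omega) hE (Lf t W m C v)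
    (fun A B hAB hU hA hB => keySum t ht W m hm C hC v A B hAB hU hA hB) q hqE
  set p : Fin (s + 1) → Fin (s + 1) → K := fun j l =>
    ∑ i ∈ range m, ∑ k ∈ range m, C i j k l * t v ^ i * t v ^ k with hp
  have hev : ∀ y w : K, ev2 p y w = E4 m (s + 1) C (t v) y (t v) w := by
    intro y w
    unfold ev2 E4
    simp only [hp]
    rw [Finset.sum_range (n := s + 1)]
    refine Finset.sum_congr rfl fun j _ => ?_
    rw [Finset.sum_range (n := s + 1)]
    refine Finset.sum_congr rfl fun l _ => ?_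
    rw [Finset.sum_mul, Finset.sum_mul]
    refine Finset.sum_congr rfl fun i _ => ?_
    rw [Finset.sum_mul, Finset.sum_mul]
    refine Finset.sum_congr rfl fun k _ => ?_
    ring
  have hp0 : p = 0 := by
    have hTF' := @hTF {x // x ∈ (univ.erase v).erase q} inferInstance inferInstance
      (fun x => t x.1) (fun x => D x.1)
    refine hTF' ?_ s ?_ (fun x y => xK (nW W) v x.1 v y.1) ?_ p ?_
    · intro x y
      rw [hD]
      by_cases h : x = y
      · rw [if_pos h, if_pos (congrArg Subtype.val h)]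
      · rw [if_neg h, if_neg (fun h' => h (Subtype.ext h'))]
    · rw [Fintype.card_coe, Finset.card_erase_of_mem hqE, hE]; omega
    · intro x y hxy
      have hx := Finset.mem_erase.1 (Finset.mem_erase.1 x.2).2
      have hy := Finset.mem_erase.1 (Finset.mem_erase.1 y.2).2
      exact tour hx.1 hy.1 (fun h => hxy (Subtype.ext h))
    · intro a b' ha hb
      have := key a (by omega) b' (by omega)
      refine Eq.trans ?_ this
      have step : ∀ F : Fin (2 * (s + 2) + 1) → Fin (2 * (s + 2) + 1) → K,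
          ∑ x : {x // x ∈ (univ.erase v).erase q}, ∑ y : {x // x ∈ (univ.erase v).erase q},
            F x.1 y.1 = ∑ b ∈ (univ.erase v).erase q, ∑ d ∈ (univ.erase v).erase q, F b d := by
        intro F
        rw [← Finset.sum_coe_sort ((univ.erase v).erase q)
          (fun b => ∑ d ∈ (univ.erase v).erase q, F b d)]
        refine Finset.sum_congr rfl fun x _ => ?_
        exact Finset.sum_coe_sort ((univ.erase v).erase q) (fun d => F x.1 d)
      rw [← step (fun b d => Lf t W m C v b d * (t b + t q) * (t d + t q) * (t b + t d) *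
        t b ^ a * t d ^ b')]
      refine Finset.sum_congr (by ext; simp) fun x _ => Finset.sum_congr (by ext; simp) fun y _ => ?_
      rw [← om_sub t ht hq x, ← om_sub t ht hq y, hev]
      by_cases hxy : x = y
      · rw [if_neg (fun h => h.2 hxy), hxy, CharTwo.add_self_eq_zero (t y.1)]; ring
      · unfold Lf
        rw [ph_eq]
        by_cases h1 : xK (nW W) v x.1 v y.1 = 1
        · rw [if_pos ⟨h1, hxy⟩, if_pos h1]; ring
        · rw [if_neg (fun h => h1 h.1), if_neg h1]; ring
  have := congrFun (congrFun hp0 ⟨j, hj⟩) ⟨l, hl⟩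
  simpa [hp] using this

end Loc

/-! ### Descent -/

section Desc

variable {K : Type} [Field K] [CharP K 2] {s : ℕ}

/-- antidiagonal sums of a bivariate array vanish if the diagonal polynomial has many zeros -/
theorem antidiag {n : ℕ} (t : Fin n → K) (ht : Function.Injective t) (m : ℕ) (hm : 2 * m < n)
    (D : ℕ → ℕ → K) (hD : ∀ i k, m < i ∨ m < k → D i k = 0)
    (h : ∀ v, ∑ i ∈ range (m + 1), ∑ k ∈ range (m + 1), D i k * t v ^ i * t v ^ k = 0) :
    ∀ u, ∑ p ∈ antidiagonal u, D p.1 p.2 = 0 := by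
  classical
  set f : K[X] := ∑ i ∈ range (m + 1), ∑ k ∈ range (m + 1), Polynomial.C (D i k) * X ^ (i + k)
    with hf
  have hdeg : f.natDegree ≤ 2 * m := by
    refine Polynomial.natDegree_sum_le_of_forall_le _ _ fun i hi => ?_
    refine Polynomial.natDegree_sum_le_of_forall_le _ _ fun k hk => ?_
    refine (Polynomial.natDegree_C_mul_X_pow_le _ _).trans ?_
    have := Finset.mem_range.1 hi
    have := Finset.mem_range.1 hk
    omega
  have hf0 : f = 0 := by
    refine Polynomial.eq_zero_of_natDegree_lt_card_of_eval_eq_zero f ht (fun v => ?_) ?_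
    · rw [← h v, hf, Polynomial.eval_finsetSum]
      refine Finset.sum_congr rfl fun i _ => ?_
      rw [Polynomial.eval_finsetSum]
      refine Finset.sum_congr rfl fun k _ => ?_
      simp only [Polynomial.eval_mul, Polynomial.eval_C, Polynomial.eval_pow, Polynomial.eval_X]
      rw [pow_add]; ring
    · rw [Fintype.card_fin]; omega
  intro u
  have hc : f.coeff u = 0 := by rw [hf0, Polynomial.coeff_zero]
  rw [← hc, hf]
  simp only [Polynomial.finsetSum_coeff, Polynomial.coeff_C_mul, Polynomial.coeff_X_pow]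
  rw [← Finset.sum_product' (range (m + 1)) (range (m + 1))
    (fun i k => D i k * (if u = i + k then (1 : K) else 0))]
  have e : ∀ q : ℕ × ℕ, D q.1 q.2 * (if u = q.1 + q.2 then (1 : K) else 0) =
      if q.1 + q.2 = u then D q.1 q.2 else 0 := by
    intro q
    by_cases hq : q.1 + q.2 = u
    · rw [if_pos hq, if_pos hq.symm, mul_one]
    · rw [if_neg hq, if_neg (Ne.symm hq), mul_zero]
  simp only [e]
  rw [← Finset.sum_filter]
  symm
  refine Finset.sum_subset ?_ ?_
  · intro q hq
    exact HasAntidiagonal.mem_antidiagonal.2 (Finset.mem_filter.1 hq).2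
  · intro q hq hq'
    refine hD _ _ ?_
    by_contra hcon
    push Not at hcon
    refine hq' (Finset.mem_filter.2 ⟨Finset.mem_product.2 ⟨Finset.mem_range.2 (by omega),
      Finset.mem_range.2 (by omega)⟩, HasAntidiagonal.mem_antidiagonal.1 hq⟩)

theorem inj (hTF : TForm K) (t : Fin (2 * (s + 2) + 1) → K)
    (D : Fin (2 * (s + 2) + 1) → Derivation ℤ K K)
    (hD : ∀ i j, D i (t j) = if i = j then 1 else 0) (ht : Function.Injective t)
    (W : Fin (2 * (s + 2) + 1) → Fin (2 * (s + 2) + 1) → Fin (2 * (s + 2) + 1) → ZMod 2) :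
    ∀ m : ℕ, m ≤ s + 2 → ∀ C : ℕ → ℕ → ℕ → ℕ → K,
      (∀ i j k l, j < s + 1 → l < s + 1 → (m ≤ i ∨ m ≤ k) → C i j k l = 0) →
      (∀ a b c d, (a, b, c, d) ∈ SK W → E4 m (s + 1) C (t a) (t b) (t c) (t d) = 0) →
      ∀ i j k l, j < s + 1 → l < s + 1 → C i j k l = 0 := by
  intro m
  induction m with
  | zero =>
    intro _ C hsupp _ i j k l hj hl
    exact hsupp i j k l hj hl (Or.inl (Nat.zero_le _))
  | succ m ih =>
    intro hm C hsupp hC
    have hanti : ∀ j l, j < s + 1 → l < s + 1 →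
        ∀ u, ∑ p ∈ antidiagonal u, C p.1 j p.2 l = 0 := by
      intro j l hj hl
      refine antidiag t ht m (by omega) (fun i k => C i j k l)
        (fun i k h => hsupp i j k l hj hl (by omega)) (fun v => ?_)
      exact local_zero hTF t D hD ht W (m + 1) hm C hC v j l hj hl
    have hev : ∀ x y z w : K, E4 (m + 1) (s + 1) C x y z w =
        (x + z) * E4 m (s + 1) (fun i j k l => quo (fun i k => C i j k l) i k) x y z w := by
      intro x y z w
      unfold E4
      rw [Finset.mul_sum]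
      refine Finset.sum_congr rfl fun j hj => ?_
      rw [Finset.mul_sum]
      refine Finset.sum_congr rfl fun l hl => ?_
      have hj' := Finset.mem_range.1 hj
      have hl' := Finset.mem_range.1 hl
      have h1 := quo_eval (D := fun i k => C i j k l) (m := m)
        (fun i k h => hsupp i j k l hj' hl' (by omega)) (hanti j l hj' hl') x z
      have h2 : ∑ i ∈ range (m + 1), ∑ k ∈ range (m + 1),
          C i j k l * x ^ i * y ^ j * z ^ k * w ^ l = (y ^ j * w ^ l) *
          ∑ i ∈ range (m + 1), ∑ k ∈ range (m + 1), C i j k l * x ^ i * z ^ k := by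
        simp only [Finset.mul_sum]
        refine Finset.sum_congr rfl fun i _ => Finset.sum_congr rfl fun k _ => ?_
        ring
      rw [h2, h1]
      simp only [Finset.mul_sum]
      refine Finset.sum_congr rfl fun i _ => Finset.sum_congr rfl fun k _ => ?_
      ring
    have h0 := ih (by omega) (fun i j k l => quo (fun i k => C i j k l) i k) ?_ ?_
    · intro i j k l hj hl
      exact quo_inj (D := fun i k => C i j k l) (hanti j l hj hl)
        (fun a b => h0 a j b l hj hl) i k
    · intro i j k l hj hl h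
      rcases h with h | h
      · exact quo_supp1 (D := fun i k => C i j k l) (m := m)
          (fun i k h => hsupp i j k l hj hl (by omega)) h
      · exact quo_supp2 (D := fun i k => C i j k l) (m := m)
          (fun i k h => hsupp i j k l hj hl (by omega)) (hanti j l hj hl) h
    · intro a b c d hq
      have h1 := hC a b c d hq
      rw [hev] at h1
      refine (mul_eq_zero.1 h1).resolve_left ?_
      rw [← CharTwo.sub_eq_add, sub_eq_zero]
      exact fun h => (mem_SK.1 hq).1.2.1 (ht h)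

end Desc

/-! ### Isotropy and the count -/

section Fin

variable {K : Type} [Field K] [CharP K 2] {s : ℕ}

theorem iso (t : Fin (2 * (s + 2) + 1) → K) (ht : Function.Injective t)
    (W : Fin (2 * (s + 2) + 1) → Fin (2 * (s + 2) + 1) → Fin (2 * (s + 2) + 1) → ZMod 2)
    (P Q : ℕ → ℕ → ℕ → ℕ → K) :
    ∑ q ∈ SK W, (om t q.1 * om t q.2.1 * om t q.2.2.1 * om t q.2.2.2 *
      ((t q.1 + t q.2.2.1) * (t q.1 + t q.2.2.2) * (t q.2.1 + t q.2.2.1) *
      (t q.2.1 + t q.2.2.2))) *
      E4 (s + 2) (s + 1) P (t q.1) (t q.2.1) (t q.2.2.1) (t q.2.2.2) *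
      E4 (s + 2) (s + 1) Q (t q.2.1) (t q.1) (t q.2.2.2) (t q.2.2.1) = 0 := by
  classical
  set U : Fin (2 * (s + 2) + 1) → Fin (2 * (s + 2) + 1) → Fin (2 * (s + 2) + 1) →
    Fin (2 * (s + 2) + 1) → K := fun a b c d =>
    ((t a + t c) * (t a + t d) * (t b + t c) * (t b + t d)) *
      (E4 (s + 2) (s + 1) P (t a) (t b) (t c) (t d) *
        E4 (s + 2) (s + 1) Q (t b) (t a) (t d) (t c)) with hUdef
  have hcard : Fintype.card (Fin (2 * (s + 2) + 1)) = 2 * (s + 2) + 1 := Fintype.card_fin _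
  have h1 : ∀ b c d, ∑ a, om t a * U a b c d = 0 := by
    intro b c d
    have h := ((((PD.addc t (t c)).mul (PD.addc t (t d))).mul
      (E4_pd1 (t := t) (m := s + 2) (s := s + 1) (C := P) (t b) (t c) (t d))).mul
      (E4_pd2 (t := t) (m := s + 2) (s := s + 1) (C := Q) (t b) (t d) (t c))).mul
      (PD.const t ((t b + t c) * (t b + t d)))
    rw [← lag ht h (by rw [hcard]; omega)]
    refine Finset.sum_congr rfl fun a _ => ?_
    simp only [hUdef]; ring
  have h2 : ∀ a c d, ∑ b, om t b * U a b c d = 0 := by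
    intro a c d
    have h := ((((PD.addc t (t c)).mul (PD.addc t (t d))).mul
      (E4_pd2 (t := t) (m := s + 2) (s := s + 1) (C := P) (t a) (t c) (t d))).mul
      (E4_pd1 (t := t) (m := s + 2) (s := s + 1) (C := Q) (t a) (t d) (t c))).mul
      (PD.const t ((t a + t c) * (t a + t d)))
    rw [← lag ht h (by rw [hcard]; omega)]
    refine Finset.sum_congr rfl fun b _ => ?_
    simp only [hUdef]; ring
  have h3 : ∀ a b d, ∑ c, om t c * U a b c d = 0 := by
    intro a b d
    have h := ((((PD.addc t (t a)).mul (PD.addc t (t b))).mul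
      (E4_pd3 (t := t) (m := s + 2) (s := s + 1) (C := P) (t a) (t b) (t d))).mul
      (E4_pd4 (t := t) (m := s + 2) (s := s + 1) (C := Q) (t b) (t a) (t d))).mul
      (PD.const t ((t a + t d) * (t b + t d)))
    rw [← lag ht h (by rw [hcard]; omega)]
    refine Finset.sum_congr rfl fun c _ => ?_
    simp only [hUdef]; ring
  have h4 : ∀ a b c, ∑ d, om t d * U a b c d = 0 := by
    intro a b c
    have h := ((((PD.addc t (t a)).mul (PD.addc t (t b))).mul
      (E4_pd4 (t := t) (m := s + 2) (s := s + 1) (C := P) (t a) (t b) (t c))).mul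
      (E4_pd3 (t := t) (m := s + 2) (s := s + 1) (C := Q) (t b) (t a) (t c))).mul
      (PD.const t ((t a + t c) * (t b + t c)))
    rw [← lag ht h (by rw [hcard]; omega)]
    refine Finset.sum_congr rfl fun d _ => ?_
    simp only [hUdef]; ring
  have tot := E2 (nW W) (om t) U h1 h2 h3 h4
  rw [← tot, SK, Finset.sum_filter]
  simp only [Fintype.sum_prod_type]
  refine Finset.sum_congr rfl fun a _ => Finset.sum_congr rfl fun b _ =>
    Finset.sum_congr rfl fun c _ => Finset.sum_congr rfl fun d _ => ?_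
  by_cases hDist : RedK.Dist4 a b c d
  · rw [xK_nW hDist, ph_eq]
    by_cases hx : xK W a b c d = 1
    · rw [if_pos ⟨hDist, hx⟩, if_pos hx]
      simp only [hUdef]; ring
    · rw [if_neg (fun h => hx h.2), if_neg hx, zero_mul]
  · rw [if_neg (fun h => hDist h.1)]
    symm
    by_cases hab : a = b
    · rw [hab, xK_ab, map_zero, zero_mul]
    by_cases hcd : c = d
    · rw [hcd, xK_cd, map_zero, zero_mul]
    have : U a b c d = 0 := by
      simp only [hUdef]
      by_cases hac : a = c
      · rw [hac, CharTwo.add_self_eq_zero]; ring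
      by_cases had : a = d
      · rw [had, CharTwo.add_self_eq_zero (t d)]; ring
      by_cases hbc : b = c
      · rw [hbc, CharTwo.add_self_eq_zero (t c)]; ring
      by_cases hbd : b = d
      · rw [hbd, CharTwo.add_self_eq_zero (t d)]; ring
      exact absurd ⟨hab, hac, had, hbc, hbd, hcd⟩ hDist
    rw [this, mul_zero, mul_zero]

/-- array of a finite array, extended by zero -/
def ext4 (V : Fin (s + 2) → Fin (s + 1) → Fin (s + 2) → Fin (s + 1) → K) (i j k l : ℕ) : K :=
  if h : i < s + 2 ∧ j < s + 1 ∧ k < s + 2 ∧ l < s + 1 then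
    V ⟨i, h.1⟩ ⟨j, h.2.1⟩ ⟨k, h.2.2.1⟩ ⟨l, h.2.2.2⟩ else 0

theorem ext4_add (V V' : Fin (s + 2) → Fin (s + 1) → Fin (s + 2) → Fin (s + 1) → K) (i j k l : ℕ) :
    ext4 (V + V') i j k l = ext4 V i j k l + ext4 V' i j k l := by
  unfold ext4
  split_ifs with h
  · rfl
  · simp

theorem ext4_smul (c : K) (V : Fin (s + 2) → Fin (s + 1) → Fin (s + 2) → Fin (s + 1) → K)
    (i j k l : ℕ) : ext4 (c • V) i j k l = c * ext4 V i j k l := by
  unfold ext4
  split_ifs with h
  · rfl
  · simp

/-- the evaluation map -/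
def evL (t : Fin (2 * (s + 2) + 1) → K) :
    (Fin (s + 2) → Fin (s + 1) → Fin (s + 2) → Fin (s + 1) → K) →ₗ[K]
      (Fin (2 * (s + 2) + 1) × Fin (2 * (s + 2) + 1) × Fin (2 * (s + 2) + 1) ×
        Fin (2 * (s + 2) + 1) → K) where
  toFun V q := E4 (s + 2) (s + 1) (ext4 V) (t q.1) (t q.2.1) (t q.2.2.1) (t q.2.2.2)
  map_add' V V' := by
    funext q
    simp only [E4, ext4_add, Pi.add_apply, add_mul, Finset.sum_add_distrib]
  map_smul' c V := by
    funext q
    simp only [E4, ext4_smul, Pi.smul_apply, smul_eq_mul, RingHom.id_apply, Finset.mul_sum,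
      mul_assoc]

theorem knF2_of_field (hTF : TForm K) (t : Fin (2 * (s + 2) + 1) → K)
    (D : Fin (2 * (s + 2) + 1) → Derivation ℤ K K)
    (hD : ∀ i j, D i (t j) = if i = j then 1 else 0) : KnF2 (2 * (s + 2) + 1) := by
  classical
  have ht : Function.Injective t := by
    intro i j hij
    by_contra hne
    have h1 := hD i i
    have h2 := hD i j
    rw [hij, h2, if_neg hne, if_pos rfl] at h1
    exact zero_ne_one h1
  intro W hW
  have key := half_card (K := K)
    (V := Fin (s + 2) → Fin (s + 1) → Fin (s + 2) → Fin (s + 1) → K) (SK W)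
    (fun q => (q.2.1, q.1, q.2.2.2, q.2.2.1)) ?_ (fun _ _ => rfl)
    (fun q => om t q.1 * om t q.2.1 * om t q.2.2.1 * om t q.2.2.2 *
      ((t q.1 + t q.2.2.1) * (t q.1 + t q.2.2.2) * (t q.2.1 + t q.2.2.1) *
      (t q.2.1 + t q.2.2.2))) ?_ (evL t) ?_ ?_
  · have hfr : Module.finrank K (Fin (s + 2) → Fin (s + 1) → Fin (s + 2) → Fin (s + 1) → K) =
        (s + 2) * ((s + 1) * ((s + 2) * (s + 1))) := by
      simp [Module.finrank_pi_fintype]
    rw [hfr] at key
    refine le_trans (le_of_eq ?_) key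
    have f1 : (2 * (s + 2) + 1) / 2 = s + 2 := by omega
    have f2 : (2 * (s + 2) + 1 - 1) / 2 = s + 2 := by omega
    have f3 : (2 * (s + 2) + 1 - 2) / 2 = s + 1 := by omega
    have f4 : (2 * (s + 2) + 1 - 3) / 2 = s + 1 := by omega
    rw [f1, f2, f3, f4]; ring
  · intro q hq
    obtain ⟨a, b, c, d⟩ := q
    obtain ⟨⟨n1, n2, n3, n4, n5, n6⟩, hx⟩ := mem_SK.1 hq
    refine mem_SK.2 ⟨⟨n1.symm, n5, n4, n3, n2, n6.symm⟩, ?_⟩
    rw [← hx]
    simp only [xK]
    rw [hW b d c, hW a d c, hW c b a, hW d b a]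
    ring
  · intro q hq
    obtain ⟨a, b, c, d⟩ := q
    obtain ⟨⟨n1, n2, n3, n4, n5, n6⟩, hx⟩ := mem_SK.1 hq
    have hne : ∀ x y : Fin (2 * (s + 2) + 1), x ≠ y → t x + t y ≠ 0 := fun x y hxy => by
      rw [← CharTwo.sub_eq_add, sub_ne_zero]
      exact fun h => hxy (ht h)
    exact mul_ne_zero (mul_ne_zero (mul_ne_zero (mul_ne_zero (om_ne ht _) (om_ne ht _))
      (om_ne ht _)) (om_ne ht _)) (mul_ne_zero (mul_ne_zero (mul_ne_zero (hne _ _ n2)
      (hne _ _ n3)) (hne _ _ n4)) (hne _ _ n5))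
  · intro f g
    exact iso t ht W (ext4 f) (ext4 g)
  · intro f hf
    have h0 := inj hTF t D hD ht W (s + 2) le_rfl (ext4 f) ?_ ?_
    · funext i j k l
      have := h0 i j k l j.2 l.2
      unfold ext4 at this
      rw [dif_pos ⟨i.2, j.2, k.2, l.2⟩] at this
      exact this
    · intro i j k l _ _ h
      unfold ext4
      rw [dif_neg]
      omega
    · intro a b c d hq
      exact hf (a, b, c, d) hq

end Fin

/-- **BLOCK KN**: the F2 form of Harary–Hill for odd `n ≥ 5`, from (T). -/
theorem knF2_odd (hT : ∀ (K : Type) [Field K] [CharP K 2], TForm K) :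
    ∀ r : ℕ, 2 ≤ r → KnF2 (2 * r + 1) := by
  intro r hr
  obtain ⟨s, rfl⟩ : ∃ s, r = s + 2 := ⟨r - 2, by omega⟩
  obtain ⟨K, _, _, _, t, D, hD⟩ := Gen259.exists_field (2 * (s + 2) + 1)
  exact knF2_of_field (hT K) t D hD

end Crest.Agent.R36.Kn810
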